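import Mathlib
import Crest.Agent.R188.Str0

/-!
# Row 265 (helper83): local dimension `hq J m` = height of `m / J`, and regular points

* `hq_le_iff` : description by chains of primes; `hq_le_of` (locality, radicals), `hq_succ_le`;
* `hq_le_sup_add` : Krull's height theorem;
* `regular_point` : if `m` is generated by `n` elements modulo `J' + m²`, `J' ≤ J ≤ m` and
  `n ≤ hq J m`, then `J = J'` near `m`, `hq = n`, and `J'` is prime near `m`.
-/

set_option autoImplicit false

namespace Crest.Agent.N265.Jac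

section Hq

variable {A : Type*} [CommRing A]

/-- local dimension of `V(J)` at `m` -/
noncomputable def hq (J m : Ideal A) : ℕ∞ := (m.map (Ideal.Quotient.mk J)).height

theorem hq_le_iff {J m : Ideal A} [hm : m.IsPrime] (hJ : J ≤ m) {n : ℕ∞} :
    hq J m ≤ n ↔ ∀ s : LTSeries (PrimeSpectrum A), J ≤ s.head.asIdeal → s.last.asIdeal ≤ m →
      (s.length : ℕ∞) ≤ n := by
  have hp : (m.map (Ideal.Quotient.mk J)).IsPrime := Ideal.isPrime_map_quotientMk_of_isPrime hJ
  have hh : hq J m = Order.height (⟨_, hp⟩ : PrimeSpectrum (A ⧸ J)) :=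
    PrimeSpectrum.height_eq_orderHeight (⟨_, hp⟩ : PrimeSpectrum (A ⧸ J))
  have hcm : ∀ q : Ideal A, J ≤ q →
      (q.map (Ideal.Quotient.mk J)).comap (Ideal.Quotient.mk J) = q := by
    intro q hq
    rw [Ideal.comap_map_of_surjective _ Ideal.Quotient.mk_surjective, ← RingHom.ker_eq_comap_bot,
      Ideal.mk_ker, sup_eq_left.2 hq]
  rw [hh, Order.height_le_iff]
  constructor
  · intro h s h1 h2
    have hle : ∀ i, J ≤ (s i).asIdeal := fun i => h1.trans (s.head_le i)
    let t : LTSeries (PrimeSpectrum (A ⧸ J)) := LTSeries.mk s.length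
      (fun i => ⟨(s i).asIdeal.map (Ideal.Quotient.mk J),
        Ideal.isPrime_map_quotientMk_of_isPrime (hle i)⟩)
      (fun i j hij => by
        have hlt : (s i).asIdeal < (s j).asIdeal := s.strictMono hij
        refine lt_of_le_of_ne (Ideal.map_mono hlt.le) fun e => hlt.ne ?_
        have e' := congrArg (fun p : PrimeSpectrum (A ⧸ J) =>
          p.asIdeal.comap (Ideal.Quotient.mk J)) e
        simp only at e'
        rwa [hcm _ (hle i), hcm _ (hle j)] at e')
    exact h (p := t) (Ideal.map_mono h2)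
  · intro h s hs
    have hsm : StrictMono (PrimeSpectrum.comap (Ideal.Quotient.mk J)) := fun p q hpq =>
      lt_of_le_of_ne (Ideal.comap_mono hpq.le) fun e => hpq.ne
        (PrimeSpectrum.comap_injective_of_surjective _ Ideal.Quotient.mk_surjective e)
    refine h (s.map _ hsm) ?_ ?_
    · intro r hr
      rw [LTSeries.head_map]
      change Ideal.Quotient.mk J r ∈ s.head.asIdeal
      rw [Ideal.Quotient.eq_zero_iff_mem.2 hr]
      exact zero_mem _
    · rw [LTSeries.last_map, ← hcm m hJ]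
      exact Ideal.comap_mono hs

/-- `hq` only depends on the primes between `J` and `m` -/
theorem hq_le_of {J J' m : Ideal A} [m.IsPrime] (hJ : J ≤ m)
    (h : ∀ q : Ideal A, q.IsPrime → q ≤ m → J ≤ q → J' ≤ q) : hq J m ≤ hq J' m := by
  have hJ' : J' ≤ m := h m inferInstance le_rfl hJ
  rw [hq_le_iff hJ]
  intro s h1 h2
  exact (hq_le_iff hJ').1 le_rfl s
    (h _ s.head.isPrime (le_trans (s.head_le (Fin.last _) : s.head.asIdeal ≤ s.last.asIdeal) h2) h1) h2

theorem hq_anti {J J' m : Ideal A} [m.IsPrime] (hJ : J ≤ m) (h : J' ≤ J) : hq J m ≤ hq J' m :=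
  hq_le_of hJ fun _ _ _ h' => h.trans h'

theorem hq_mono_right {J m m' : Ideal A} (h : m ≤ m') : hq J m ≤ hq J m' :=
  Ideal.height_mono (Ideal.map_mono h)

theorem hq_radical {J m : Ideal A} [hm : m.IsPrime] (hJ : J ≤ m) : hq J.radical m = hq J m :=
  le_antisymm (hq_anti (hm.radical_le_iff.2 hJ) Ideal.le_radical)
    (hq_le_of hJ fun _ hq _ h => hq.radical_le_iff.2 h)

/-- ideals which agree near `m` have the same local dimension -/
theorem hq_eq_of_local {J J' m : Ideal A} [hm : m.IsPrime] (hJ : J ≤ m) (h : J' ≤ J)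
    (hl : ∀ a ∈ J, ∃ r, r ∉ m ∧ ∃ k : ℕ, r * a ^ k ∈ J') : hq J m = hq J' m := by
  refine le_antisymm (hq_anti hJ h) (hq_le_of (h.trans hJ) fun q hq hqm hJq a ha => ?_)
  obtain ⟨r, hr, k, hk⟩ := hl a ha
  exact hq.mem_of_pow_mem k ((hq.mem_or_mem (hJq hk)).resolve_left fun h' => hr (hqm h'))

/-- a prime strictly below all primes over `J` raises the dimension -/
theorem hq_succ_le {J J' m p : Ideal A} [m.IsPrime] [hp : p.IsPrime] (hJ : J ≤ m) (hJ' : J' ≤ p)
    (h : ∀ q : Ideal A, q.IsPrime → q ≤ m → J ≤ q → p < q) : hq J m + 1 ≤ hq J' m := by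
  have hJ'm : J' ≤ m := hJ'.trans (h m inferInstance le_rfl hJ).le
  have key : ∀ s : LTSeries (PrimeSpectrum A), J ≤ s.head.asIdeal → s.last.asIdeal ≤ m →
      (s.length : ℕ∞) + 1 ≤ hq J' m := by
    intro s h1 h2
    have hlt : (⟨p, hp⟩ : PrimeSpectrum A) < s.head :=
      h _ s.head.isPrime (le_trans (s.head_le (Fin.last _) : s.head.asIdeal ≤ s.last.asIdeal) h2) h1
    have := (hq_le_iff hJ'm).1 le_rfl (s.cons ⟨p, hp⟩ hlt) (by simpa using hJ') (by simpa using h2)
    simpa using this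
  cases hc : hq J' m with
  | top => exact le_top
  | coe n =>
    rw [hc] at key
    have h0 : 1 ≤ n := by
      have := key (RelSeries.singleton _ ⟨m, inferInstance⟩) hJ le_rfl
      simpa using this
    obtain ⟨n, rfl⟩ := Nat.exists_eq_add_of_le' h0
    have : hq J m ≤ n := (hq_le_iff hJ).2 fun s h1 h2 => by
      have := key s h1 h2
      exact_mod_cast (by exact_mod_cast this : s.length + 1 ≤ n + 1) |> Nat.le_of_succ_le_succ
    push_cast
    gcongr

theorem hq_bot (m : Ideal A) [m.IsPrime] : hq ⊥ m = m.height := by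
  refine eq_of_forall_ge_iff fun n => ?_
  rw [hq_le_iff bot_le, PrimeSpectrum.height_eq_orderHeight ⟨m, inferInstance⟩,
    Order.height_le_iff]
  exact ⟨fun h s hs => h s bot_le hs, fun h s _ hs => h hs⟩

/-- passing to a quotient ring -/
theorem hq_map (J₀ : Ideal A) {J m : Ideal A} (h : J₀ ≤ J) :
    hq (J.map (Ideal.Quotient.mk J₀)) (m.map (Ideal.Quotient.mk J₀)) = hq J m := by
  unfold hq
  rw [← RingEquiv.height_map (DoubleQuot.quotQuotEquivQuotOfLE h),
    ← DoubleQuot.quotQuotEquivQuotOfLE_comp_quotQuotMk h, ← Ideal.map_map, DoubleQuot.quotQuotMk,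
    ← Ideal.map_map]
  rfl

/-- **Krull's height theorem** -/
theorem hq_le_sup_add {J m : Ideal A} [m.IsPrime] [IsNoetherianRing (A ⧸ J)] (hJ : J ≤ m)
    {r : ℕ} (s : Fin r → A) (hs : ∀ i, s i ∈ m) :
    hq J m ≤ hq (J ⊔ Ideal.span (Set.range s)) m + r := by
  have hp : (m.map (Ideal.Quotient.mk J)).IsPrime := Ideal.isPrime_map_quotientMk_of_isPrime hJ
  have h1 : (J ⊔ Ideal.span (Set.range s)).map (Ideal.Quotient.mk J)
      = Ideal.span (Set.range fun i => Ideal.Quotient.mk J (s i)) := by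
    rw [Ideal.map_sup, Ideal.map_quotient_self, bot_sup_eq, Ideal.map_span, ← Set.range_comp]
    rfl
  rw [← hq_map J (le_sup_left : J ≤ J ⊔ _), h1]
  refine (Ideal.height_le_height_add_spanFinrank_of_le
    (I := Ideal.span (Set.range fun i => Ideal.Quotient.mk J (s i))) ?_).trans ?_
  · rw [Ideal.span_le]
    rintro _ ⟨i, rfl⟩
    exact Ideal.mem_map_of_mem _ (hs i)
  · gcongr
    · exact le_rfl
    · exact_mod_cast R188.Str.spanFinrank_le_of_span_range _

end Hq

section Regular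

variable {A : Type*} [CommRing A]

/-- the elements of `A` which lie in `J` near `m` -/
def locI (J m : Ideal A) [hm : m.IsPrime] : Ideal A where
  carrier := {a | ∃ r, r ∉ m ∧ r * a ∈ J}
  add_mem' := by
    rintro a b ⟨r, hr, ha⟩ ⟨s, hs, hb⟩
    refine ⟨r * s, fun h => (hm.mem_or_mem h).elim hr hs, ?_⟩
    have : r * s * (a + b) = s * (r * a) + r * (s * b) := by ring
    rw [this]
    exact add_mem (J.mul_mem_left _ ha) (J.mul_mem_left _ hb)
  zero_mem' := ⟨1, fun h => hm.ne_top ((Ideal.eq_top_iff_one _).2 h), by simp⟩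
  smul_mem' := by
    rintro c a ⟨r, hr, ha⟩
    refine ⟨r, hr, ?_⟩
    rw [smul_eq_mul, mul_left_comm]
    exact J.mul_mem_left _ ha

theorem mem_locI {J m : Ideal A} [m.IsPrime] {a : A} :
    a ∈ locI J m ↔ ∃ r, r ∉ m ∧ r * a ∈ J := Iff.rfl

theorem le_locI (J m : Ideal A) [hm : m.IsPrime] : J ≤ locI J m := fun a ha =>
  ⟨1, fun h => hm.ne_top ((Ideal.eq_top_iff_one _).2 h), by simpa using ha⟩

theorem locI_le {J m q : Ideal A} [m.IsPrime] (hq : q.IsPrime) (hqm : q ≤ m) (hJ : J ≤ q) :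
    locI J m ≤ q := by
  rintro a ⟨r, hr, ha⟩
  exact (hq.mem_or_mem (hJ ha)).resolve_left fun h => hr (hqm h)

/-- one denominator for a whole ideal -/
theorem exists_denom {J J' m : Ideal A} [hm : m.IsPrime] [IsNoetherianRing (A ⧸ J')]
    (h : J ≤ locI J' m) : ∃ r, r ∉ m ∧ ∀ a ∈ J, r * a ∈ J' := by
  classical
  obtain ⟨t, ht⟩ := (J.map (Ideal.Quotient.mk J')).fg_of_isNoetherianRing
  have h1 : ∀ b ∈ t, ∃ r, r ∉ m ∧ Ideal.Quotient.mk J' r * b = 0 := by
    intro b hb
    have hb' : b ∈ J.map (Ideal.Quotient.mk J') := ht ▸ Ideal.subset_span hb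
    obtain ⟨a, ha, rfl⟩ := (Ideal.mem_map_iff_of_surjective _ Ideal.Quotient.mk_surjective).1 hb'
    obtain ⟨r, hr, hra⟩ := h ha
    exact ⟨r, hr, by rw [← map_mul]; exact Ideal.Quotient.eq_zero_iff_mem.2 hra⟩
  choose! ρ hρ hρ' using h1
  refine ⟨∏ b ∈ t, ρ b, ?_, fun a ha => ?_⟩
  · intro hc
    obtain ⟨b, hb, hb'⟩ := (Ideal.IsPrime.prod_mem_iff (hp := hm)).1 hc
    exact hρ b hb hb'
  · rw [← Ideal.Quotient.eq_zero_iff_mem, map_mul]
    have ha' : Ideal.Quotient.mk J' a ∈ Ideal.span (t : Set (A ⧸ J')) :=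
      ht ▸ Ideal.mem_map_of_mem _ ha
    refine Submodule.span_induction (p := fun z _ => Ideal.Quotient.mk J' (∏ b ∈ t, ρ b) * z = 0)
      ?_ (mul_zero _) ?_ ?_ ha'
    · intro b hb
      rw [← Finset.prod_erase_mul _ _ hb, map_mul, mul_assoc, hρ' b hb, mul_zero]
    · intro a b _ _ ha hb
      rw [mul_add, ha, hb, add_zero]
    · intro c a _ ha
      rw [smul_eq_mul, mul_left_comm, ha, mul_zero]

theorem regular_point_bot [IsNoetherianRing A] {m : Ideal A} [hm : m.IsPrime] {n : ℕ}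
    (z : Fin n → A) (hz : ∀ i, z i ∈ m) (hgen : m ≤ Ideal.span (Set.range z) ⊔ m ^ 2) :
    m.height ≤ n ∧ ((n : ℕ∞) ≤ m.height → (locI ⊥ m).IsPrime) := by
  let B := Localization.AtPrime m
  have hmax : m.map (algebraMap A B) = IsLocalRing.maximalIdeal B :=
    Localization.AtPrime.map_eq_maximalIdeal
  have hspan : Ideal.span (Set.range fun i => algebraMap A B (z i)) = IsLocalRing.maximalIdeal B := by
    refine le_antisymm ?_ ?_
    · rw [Ideal.span_le, ← hmax]
      rintro _ ⟨i, rfl⟩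
      exact Ideal.mem_map_of_mem _ (hz i)
    · refine Submodule.le_of_le_smul_of_le_jacobson_bot
        (IsLocalRing.maximalIdeal B).fg_of_isNoetherianRing
        (IsLocalRing.maximalIdeal_le_jacobson _) ?_
      have := Ideal.map_mono (f := algebraMap A B) hgen
      rw [Ideal.map_sup, Ideal.map_pow, hmax, Ideal.map_span, ← Set.range_comp, pow_two] at this
      exact this
  have hdim : ringKrullDim B = m.height := IsLocalization.AtPrime.ringKrullDim_eq_height m B
  constructor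
  · have h2 := ringKrullDim_le_spanFinrank_maximalIdeal B
    have h1 : (IsLocalRing.maximalIdeal B).spanFinrank ≤ n := by
      rw [← hspan]; exact R188.Str.spanFinrank_le_of_span_range _
    have h3 : ((IsLocalRing.maximalIdeal B).spanFinrank : WithBot ℕ∞) ≤ n := by exact_mod_cast h1
    have h4 := hdim.ge.trans (h2.trans h3)
    exact_mod_cast h4
  · intro hn
    obtain ⟨hreg, -⟩ := R188.Str.isRegularLocalRing_of_span _ hspan
      (by rw [hdim]; exact_mod_cast hn)
    have hd : IsDomain B := R188.Str.isDomain_of_isRegularLocalRing B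
    have : locI ⊥ m = RingHom.ker (algebraMap A B) := by
      ext a
      rw [mem_locI, RingHom.mem_ker, IsLocalization.map_eq_zero_iff m.primeCompl]
      exact ⟨fun ⟨r, hr, h⟩ => ⟨⟨r, hr⟩, h⟩, fun ⟨r, h⟩ => ⟨r, r.2, h⟩⟩
    rw [this]
    exact RingHom.ker_isPrime _

/-- embedding dimension bounds the dimension -/
theorem hq_le_of_gen {J m : Ideal A} [m.IsPrime] [IsNoetherianRing (A ⧸ J)] (hJ : J ≤ m) {n : ℕ}
    (z : Fin n → A) (hz : ∀ i, z i ∈ m) (hgen : m ≤ Ideal.span (Set.range z) ⊔ J ⊔ m ^ 2) :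
    hq J m ≤ n ∧ ((n : ℕ∞) ≤ hq J m → (locI J m).IsPrime) := by
  have hp : (m.map (Ideal.Quotient.mk J)).IsPrime := Ideal.isPrime_map_quotientMk_of_isPrime hJ
  obtain ⟨h1, h2⟩ := regular_point_bot (m := m.map (Ideal.Quotient.mk J))
    (fun i => Ideal.Quotient.mk J (z i)) (fun i => Ideal.mem_map_of_mem _ (hz i)) (by
      have := Ideal.map_mono (f := Ideal.Quotient.mk J) hgen
      rw [Ideal.map_sup, Ideal.map_sup, Ideal.map_pow, Ideal.map_quotient_self, sup_bot_eq,
        Ideal.map_span, ← Set.range_comp] at this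
      exact this)
  refine ⟨h1, fun hn => ?_⟩
  have hmem : ∀ r, Ideal.Quotient.mk J r ∈ m.map (Ideal.Quotient.mk J) ↔ r ∈ m := fun r =>
    Ideal.mem_quotient_iff_mem hJ
  have : locI J m = (locI ⊥ (m.map (Ideal.Quotient.mk J))).comap (Ideal.Quotient.mk J) := by
    ext a
    rw [Ideal.mem_comap, mem_locI, mem_locI]
    constructor
    · rintro ⟨r, hr, h⟩
      refine ⟨Ideal.Quotient.mk J r, fun h' => hr ((hmem r).1 h'), ?_⟩
      rw [← map_mul, Ideal.mem_bot, Ideal.Quotient.eq_zero_iff_mem]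
      exact h
    · rintro ⟨r, hr, h⟩
      obtain ⟨r, rfl⟩ := Ideal.Quotient.mk_surjective r
      rw [← map_mul, Ideal.mem_bot, Ideal.Quotient.eq_zero_iff_mem] at h
      exact ⟨r, fun h' => hr ((hmem r).2 h'), h⟩
  rw [this]
  have := h2 hn
  exact Ideal.comap_isPrime _ _

/-- **Regular points.** -/
theorem regular_point {J J' m : Ideal A} [m.IsPrime] [IsNoetherianRing (A ⧸ J')] (hJ' : J' ≤ J)
    (hJ : J ≤ m) {n : ℕ} (z : Fin n → A) (hz : ∀ i, z i ∈ m)
    (hgen : m ≤ Ideal.span (Set.range z) ⊔ J' ⊔ m ^ 2) (hn : (n : ℕ∞) ≤ hq J m) :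
    hq J m = n ∧ hq J' m = n ∧ (locI J' m).IsPrime ∧ ∃ r, r ∉ m ∧ ∀ a ∈ J, r * a ∈ J' := by
  obtain ⟨h1, h2⟩ := hq_le_of_gen (hJ'.trans hJ) z hz hgen
  have h3 := hq_anti hJ hJ'
  have hp := h2 (hn.trans h3)
  refine ⟨le_antisymm (h3.trans h1) hn, le_antisymm h1 (hn.trans h3), hp, exists_denom ?_⟩
  by_contra hc
  have h4 := hq_succ_le (J := J) (J' := J') (m := m) (p := locI J' m) hJ (le_locI _ _)
    fun q hq hqm hJq => lt_of_le_of_ne (locI_le hq hqm (hJ'.trans hJq)) fun e => hc (e ▸ hJq)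
  have h5 : (n : ℕ∞) + 1 ≤ n := (add_le_add_left hn 1).trans (h4.trans h1)
  have h6 : n + 1 ≤ n := by exact_mod_cast h5
  omega

end Regular

end Crest.Agent.N265.Jac
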