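import Crest.Agent.N265.Core
import Crest.Agent.N265.Jac.Hq

/-!
# Row 265 (helper83): ideals of `R` in finitely many variables, Taylor, Nullstellensatz

`FinJ J` : almost all variables lie in `J`.  `FinJ.noeth`, `FinJ.finite_tan`, `nss`,
`mem_sup_sq_of_dAt` (cotangent space), `exists_dual_pair`, `hq_vars`, `finrank_tan_vars`.
-/

set_option autoImplicit false
noncomputable section
open MvPolynomial

namespace Crest.Agent.N265.Jac

instance mx_isMaximal (x : Pt) : (mx x).IsMaximal :=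
  RingHom.ker_isMaximal_of_surjective _ fun c => ⟨C c, eval_C c⟩

instance mx_isPrime (x : Pt) : (mx x).IsPrime := (mx_isMaximal x).isPrime

theorem ldim_eq (X : Spc) (x : Pt) : X.ldim x = hq X.I (mx x) := rfl

theorem I_le_mx {X : Spc} {x : Pt} (hx : x ∈ X.pts) : X.I ≤ mx x := fun _ hr => hr x hx

/-- the ideal of the variables outside `V` -/
def varI (V : Finset Var) : Ideal R := Ideal.span {r | ∃ v ∉ V, r = X v}

theorem X_mem_varI {V : Finset Var} {v : Var} (hv : v ∉ V) : (X v : R) ∈ varI V :=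
  Ideal.subset_span ⟨v, hv, rfl⟩

theorem varI_le {V : Finset Var} {J : Ideal R} (h : ∀ v ∉ V, (X v : R) ∈ J) : varI V ≤ J := by
  rw [varI, Ideal.span_le]
  rintro _ ⟨v, hv, rfl⟩
  exact h v hv

/-- almost all variables lie in `J` -/
def FinJ (J : Ideal R) : Prop := ∃ V : Finset Var, ∀ v ∉ V, (X v : R) ∈ J

theorem FinJ.mono {J J' : Ideal R} (h : FinJ J) (hle : J ≤ J') : FinJ J' :=
  let ⟨V, hV⟩ := h; ⟨V, fun v hv => hle (hV v hv)⟩

theorem finJ_varI (V : Finset Var) : FinJ (varI V) := ⟨V, fun _ hv => X_mem_varI hv⟩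

theorem finJ_I (X : Spc) : FinJ X.I := by
  obtain ⟨V, -, h⟩ := X.fin
  exact ⟨V, fun v hv x hx => by rw [eval_X]; exact h x hx v hv⟩

theorem exists_rename (V : Finset Var) (a : R) :
    ∃ p : MvPolynomial V ℂ, a - rename Subtype.val p ∈ varI V := by
  induction a using MvPolynomial.induction_on with
  | C c => exact ⟨C c, by simp⟩
  | add p q hp hq =>
    obtain ⟨p', hp⟩ := hp
    obtain ⟨q', hq⟩ := hq
    refine ⟨p' + q', ?_⟩
    have : p + q - rename Subtype.val (p' + q')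
        = (p - rename Subtype.val p') + (q - rename Subtype.val q') := by rw [map_add]; ring
    rw [this]
    exact add_mem hp hq
  | mul_X p v hp =>
    by_cases hv : v ∈ V
    · obtain ⟨p', hp⟩ := hp
      refine ⟨p' * X ⟨v, hv⟩, ?_⟩
      rw [map_mul, rename_X, ← sub_mul]
      exact Ideal.mul_mem_right _ _ hp
    · exact ⟨0, by simpa using Ideal.mul_mem_left _ _ (X_mem_varI hv)⟩

theorem FinJ.finiteType {J : Ideal R} (h : FinJ J) : Algebra.FiniteType ℂ (R ⧸ J) := by
  obtain ⟨V, hV⟩ := h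
  refine Algebra.FiniteType.of_surjective
    ((Ideal.Quotient.mkₐ ℂ J).comp (rename (Subtype.val : V → Var))) fun b => ?_
  obtain ⟨a, rfl⟩ := Ideal.Quotient.mk_surjective b
  obtain ⟨p, hp⟩ := exists_rename V a
  exact ⟨p, (Ideal.Quotient.eq.2 (varI_le hV hp)).symm⟩

theorem FinJ.noeth {J : Ideal R} (h : FinJ J) : IsNoetherianRing (R ⧸ J) :=
  haveI := h.finiteType
  Algebra.FiniteType.isNoetherianRing ℂ _

/-- extension by zero -/
def ext0 (V : Finset Var) : (V → ℂ) →ₗ[ℂ] Pt where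
  toFun y := fun v => if h : v ∈ V then y ⟨v, h⟩ else 0
  map_add' a b := by funext v; by_cases h : v ∈ V <;> simp [h]
  map_smul' c a := by funext v; by_cases h : v ∈ V <;> simp [h]

theorem ext0_mem {V : Finset Var} (y : V → ℂ) (v : V) : ext0 V y v = y v := by simp [ext0]
theorem ext0_notMem {V : Finset Var} (y : V → ℂ) {v : Var} (hv : v ∉ V) : ext0 V y v = 0 := by
  simp [ext0, hv]
theorem ext0_inj (V : Finset Var) : Function.Injective (ext0 V) := fun a b h =>
  funext fun v => by rw [← ext0_mem a v, h, ext0_mem]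
theorem ext0_restrict {V : Finset Var} {ξ : Pt} (h : ∀ v ∉ V, ξ v = 0) :
    ext0 V (fun v => ξ v) = ξ := by
  funext v
  by_cases hv : v ∈ V
  · exact ext0_mem _ ⟨v, hv⟩
  · rw [ext0_notMem _ hv, h v hv]

theorem varI_le_mx {V : Finset Var} {x : Pt} : varI V ≤ mx x ↔ ∀ v ∉ V, x v = 0 :=
  ⟨fun h v hv => by simpa [mem_mx] using h (X_mem_varI hv),
    fun h => varI_le fun v hv => by simpa [mem_mx] using h v hv⟩

/-- **Nullstellensatz** -/
theorem nss {J : Ideal R} (hJ : FinJ J) {a : R} (h : ∀ y : Pt, J ≤ mx y → eval y a = 0) :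
    ∃ k : ℕ, a ^ k ∈ J := by
  obtain ⟨V, hV⟩ := hJ
  have hle := varI_le hV
  obtain ⟨p, hp⟩ := exists_rename V a
  have hev : ∀ (y : V → ℂ) (q : MvPolynomial V ℂ),
      eval (ext0 V y) (rename Subtype.val q) = aeval y q := by
    intro y q
    have : (ext0 V y) ∘ Subtype.val = y := funext fun v => ext0_mem y v
    rw [eval_rename, this]
    rfl
  have hm : p ∈ (J.comap (rename (Subtype.val : V → Var) : MvPolynomial V ℂ →ₐ[ℂ] R)).radical := by
    rw [← vanishingIdeal_zeroLocus_eq_radical (K := ℂ)]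
    intro y hy
    have h0 : varI V ≤ mx (ext0 V y) := varI_le_mx.2 fun v hv => ext0_notMem y hv
    have h1 : J ≤ mx (ext0 V y) := by
      intro j hj
      obtain ⟨q, hq⟩ := exists_rename V j
      have hq' : rename Subtype.val q ∈ J := by
        have := sub_mem hj (hle hq)
        rwa [sub_sub_cancel] at this
      have h2 := h0 hq
      rw [mem_mx, map_sub, hev, hy q hq', sub_zero] at h2
      exact h2
    have h3 := h0 hp
    rw [mem_mx, map_sub, h _ h1, hev, zero_sub, neg_eq_zero] at h3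
    exact h3
  obtain ⟨k, hk⟩ := hm
  refine ⟨k, ?_⟩
  rw [Ideal.mem_comap, map_pow] at hk
  rw [← Ideal.Quotient.eq_zero_iff_mem] at hk ⊢
  rw [map_pow] at hk ⊢
  rw [Ideal.Quotient.eq.2 (hle hp), hk]

/-! ### differentials -/

/-- the differential at `x` -/
def dL (x : Pt) : R →ₗ[ℂ] Module.Dual ℂ Pt where
  toFun r := { toFun := fun ξ => dAt x ξ r
               map_add' := fun ξ η => dAt_dir_add x ξ η r
               map_smul' := fun c ξ => dAt_dir_smul x ξ c r }
  map_add' r s := LinearMap.ext fun ξ => dAt_add x ξ r s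
  map_smul' c r := LinearMap.ext fun ξ => by
    change dAt x ξ (c • r) = c * dAt x ξ r
    rw [smul_eq_C_mul, dAt_mul]
    simp

@[simp] theorem dL_apply (x ξ : Pt) (r : R) : dL x r ξ = dAt x ξ r := rfl

theorem dAt_sub (x ξ : Pt) (r s : R) : dAt x ξ (r - s) = dAt x ξ r - dAt x ξ s := by
  rw [← dL_apply, map_sub]; rfl

theorem dAt_sum {ι : Type*} (x ξ : Pt) (t : Finset ι) (r : ι → R) :
    dAt x ξ (∑ i ∈ t, r i) = ∑ i ∈ t, dAt x ξ (r i) := by
  rw [← dL_apply, map_sum, LinearMap.sum_apply]; rfl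

theorem dAt_C_mul (x ξ : Pt) (c : ℂ) (r : R) : dAt x ξ (C c * r) = c * dAt x ξ r := by
  rw [dAt_mul]; simp

theorem dAt_sq {x : Pt} (ξ : Pt) {r : R} (h : r ∈ mx x ^ 2) : dAt x ξ r = 0 := by
  rw [pow_two] at h
  refine Submodule.mul_induction_on h (fun a ha b hb => ?_) fun a b ha hb => ?_
  · rw [dAt_mul, mem_mx.1 ha, mem_mx.1 hb]; ring
  · rw [dAt_add, ha, hb, add_zero]

theorem X_sub_mem_mx (x : Pt) (v : Var) : (X v - C (x v) : R) ∈ mx x := by simp [mem_mx]

/-- first order Taylor expansion -/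
theorem taylor (x : Pt) (r : R) : ∃ c : Var →₀ ℂ,
    r - C (eval x r) - c.sum (fun v a => C a * (X v - C (x v))) ∈ mx x ^ 2 := by
  have hadd : ∀ c d : Var →₀ ℂ, (c + d).sum (fun v a => (C a * (X v - C (x v)) : R))
      = c.sum (fun v a => C a * (X v - C (x v))) + d.sum (fun v a => C a * (X v - C (x v))) :=
    fun c d => Finsupp.sum_add_index' (by simp) (by intro v a b; rw [map_add, add_mul])
  induction r using MvPolynomial.induction_on with
  | C c => exact ⟨0, by simp⟩
  | add p q hp hq =>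
    obtain ⟨c, hc⟩ := hp
    obtain ⟨d, hd⟩ := hq
    refine ⟨c + d, ?_⟩
    convert add_mem hc hd using 1
    rw [hadd, map_add, map_add]
    ring
  | mul_X p v hp =>
    obtain ⟨c, hc⟩ := hp
    have hl : c.sum (fun v a => (C a * (X v - C (x v)) : R)) ∈ mx x :=
      Ideal.sum_mem _ fun w _ => Ideal.mul_mem_left _ _ (X_sub_mem_mx x w)
    refine ⟨x v • c + Finsupp.single v (eval x p), ?_⟩
    have h1 : (x v • c).sum (fun v a => (C a * (X v - C (x v)) : R))
        = C (x v) * c.sum (fun v a => C a * (X v - C (x v))) := by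
      rw [Finsupp.sum_smul_index' (by simp), Finsupp.mul_sum]
      refine Finset.sum_congr rfl fun w _ => ?_
      simp only [smul_eq_mul, map_mul]
      ring
    have h2 := Ideal.mul_mem_mul hl (X_sub_mem_mx x v)
    rw [← pow_two] at h2
    convert add_mem (Ideal.mul_mem_right (X v) _ hc) h2 using 1
    rw [hadd, h1, Finsupp.sum_single_index (by simp), map_mul, eval_X, map_mul]
    ring

theorem TanI_anti {J J' : Ideal R} (h : J ≤ J') (x : Pt) : TanI J' x ≤ TanI J x :=
  fun _ hξ r hr => hξ r (h hr)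

theorem TanI_sup (J J' : Ideal R) (x : Pt) : TanI (J ⊔ J') x = TanI J x ⊓ TanI J' x := by
  refine le_antisymm (le_inf (TanI_anti le_sup_left x) (TanI_anti le_sup_right x)) ?_
  rintro ξ ⟨h1, h2⟩ r hr
  obtain ⟨a, ha, b, hb, rfl⟩ := Submodule.mem_sup.1 hr
  rw [dAt_add, h1 a ha, h2 b hb, add_zero]

theorem mem_TanI_span {s : Set R} {x ξ : Pt} (hs : ∀ r ∈ s, eval x r = 0) :
    ξ ∈ TanI (Ideal.span s) x ↔ ∀ r ∈ s, dAt x ξ r = 0 := by
  refine ⟨fun h r hr => h r (Ideal.subset_span hr), fun h r hr => ?_⟩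
  have : eval x r = 0 ∧ dAt x ξ r = 0 := by
    induction hr using Submodule.span_induction with
    | mem r hr => exact ⟨hs r hr, h r hr⟩
    | zero => simp
    | add a b _ _ ha hb => rw [map_add, dAt_add, ha.1, ha.2, hb.1, hb.2]; simp
    | smul c a _ ha => rw [smul_eq_mul, map_mul, dAt_mul, ha.1, ha.2]; simp
  exact this.2

/-- ideals which agree near `x` have the same tangent space -/
theorem TanI_le_of_local {J J' : Ideal R} {x : Pt} (hJ : J ≤ mx x)
    (h : ∀ a ∈ J, ∃ r, eval x r ≠ 0 ∧ r * a ∈ J') : TanI J' x ≤ TanI J x := by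
  intro ξ hξ a ha
  obtain ⟨r, hr, hra⟩ := h a ha
  have := hξ _ hra
  rw [dAt_mul, mem_mx.1 (hJ ha), zero_mul, add_zero] at this
  exact (mul_eq_zero.1 this).resolve_left hr

theorem tan_varI {V : Finset Var} {x : Pt} (hx : ∀ v ∉ V, x v = 0) :
    TanI (varI V) x = LinearMap.range (ext0 V) := by
  ext ξ
  rw [varI, mem_TanI_span (by rintro _ ⟨v, hv, rfl⟩; rw [eval_X, hx v hv])]
  constructor
  · intro h
    exact ⟨_, ext0_restrict fun v hv => by simpa using h _ ⟨v, hv, rfl⟩⟩
  · rintro ⟨y, rfl⟩ _ ⟨v, hv, rfl⟩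
    rw [dAt_X, ext0_notMem _ hv]

theorem finrank_tan_varI {V : Finset Var} {x : Pt} (hx : ∀ v ∉ V, x v = 0) :
    Module.finrank ℂ (TanI (varI V) x) = V.card := by
  rw [tan_varI hx, LinearMap.finrank_range_of_inj (ext0_inj V)]
  simp

theorem FinJ.finite_tan {J : Ideal R} (h : FinJ J) (x : Pt) : Module.Finite ℂ (TanI J x) := by
  obtain ⟨V, hV⟩ := h
  refine Submodule.finiteDimensional_of_le (S₂ := LinearMap.range (ext0 V)) fun ξ hξ => ?_
  exact ⟨_, ext0_restrict fun v hv => by simpa using hξ _ (hV v hv)⟩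

instance finite_Tan (X : Spc) (x : Pt) : Module.Finite ℂ (X.Tan x) := (finJ_I X).finite_tan x

/-- the cotangent space: a function whose differential kills `TanI J x` lies in `J + m²` -/
theorem mem_sup_sq_of_dAt {J : Ideal R} (hfin : FinJ J) {x : Pt} (hJ : J ≤ mx x) {r : R}
    (hr : r ∈ mx x) (h : ∀ ξ ∈ TanI J x, dAt x ξ r = 0) : r ∈ J ⊔ mx x ^ 2 := by
  classical
  obtain ⟨V, hV⟩ := hfin
  let dV : R →ₗ[ℂ] Module.Dual ℂ (V → ℂ) := (ext0 V).dualMap ∘ₗ dL x
  let W : Submodule ℂ (Module.Dual ℂ (V → ℂ)) := (J.restrictScalars ℂ).map dV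
  have h1 : dV r ∈ W := by
    rw [← Subspace.dualCoannihilator_dualAnnihilator_eq (W := W), Submodule.mem_dualAnnihilator]
    intro y hy
    rw [Submodule.mem_dualCoannihilator] at hy
    exact h _ fun a ha => hy _ ⟨a, ha, rfl⟩
  obtain ⟨j, hj, hjr⟩ := h1
  obtain ⟨c, hc⟩ := taylor x (r - j)
  have h0 : eval x (r - j) = 0 := sub_mem hr (hJ hj)
  rw [h0, map_zero, sub_zero] at hc
  have h2 : ∀ v ∈ V, c v = 0 := by
    intro v hv
    have h3 := dAt_sq (ext0 V (Pi.single ⟨v, hv⟩ 1)) hc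
    have h4 : dAt x (ext0 V (Pi.single ⟨v, hv⟩ 1)) j = dAt x (ext0 V (Pi.single ⟨v, hv⟩ 1)) r :=
      LinearMap.congr_fun hjr (Pi.single ⟨v, hv⟩ 1)
    rw [dAt_sub, dAt_sub, h4, sub_self, zero_sub, neg_eq_zero, Finsupp.sum, dAt_sum,
      Finset.sum_eq_single v] at h3
    · rw [dAt_C_mul, dAt_sub, dAt_X, dAt_C, ext0_mem _ ⟨v, hv⟩] at h3
      simpa using h3
    · intro w _ hw
      rw [dAt_C_mul, dAt_sub, dAt_X, dAt_C]
      by_cases hw' : w ∈ V
      · rw [ext0_mem _ ⟨w, hw'⟩, Pi.single_eq_of_ne (fun e => hw (congrArg Subtype.val e))]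
        simp
      · rw [ext0_notMem _ hw']
        simp
    · intro hv'
      rw [Finsupp.notMem_support_iff.1 hv']
      simp
  have h5 : c.sum (fun v a => (C a * (X v - C (x v)) : R)) ∈ J := by
    refine Ideal.sum_mem _ fun v hv => Ideal.mul_mem_left _ _ ?_
    have hv' : v ∉ V := fun h => Finsupp.mem_support_iff.1 hv (h2 v h)
    have : x v = 0 := by simpa [mem_mx] using hJ (hV v hv')
    rw [this, map_zero, sub_zero]
    exact hV v hv'
  refine Submodule.mem_sup.2 ⟨j + _, add_mem hj h5, _, hc, by ring⟩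

/-- dual pairs of vectors and covectors -/
theorem exists_dual_pair {T M : Type*} [AddCommGroup T] [Module ℂ T] [Module.Finite ℂ T]
    [AddCommGroup M] [Module ℂ M] (δ : M →ₗ[ℂ] Module.Dual ℂ T) :
    ∃ (c : ℕ) (y : Fin c → M) (ξ : Fin c → T), (∀ i j, δ (y j) (ξ i) = if i = j then 1 else 0) ∧
      (∀ a, ∃ co : Fin c → ℂ, δ a = ∑ j, co j • δ (y j)) ∧
      Module.finrank ℂ (LinearMap.range δ).dualCoannihilator + c = Module.finrank ℂ T := by
  let W := LinearMap.range δ
  let b := Module.finBasis ℂ W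
  choose y hy using fun j => (b j).2
  have hs : Function.Surjective (W.subtype.dualMap ∘ₗ Module.Dual.eval ℂ T) :=
    (LinearMap.dualMap_surjective_of_injective W.injective_subtype).comp
      (Module.bijective_dual_eval ℂ T).2
  choose ξ hξ using fun i => hs (b.coord i)
  refine ⟨_, y, ξ, fun i j => ?_, fun a => ⟨b.repr ⟨δ a, a, rfl⟩, ?_⟩, ?_⟩
  · have := LinearMap.congr_fun (hξ i) (b j)
    rw [hy j]
    simpa [Finsupp.single_apply, eq_comm] using this
  · have := congrArg Subtype.val (b.sum_repr ⟨δ a, a, rfl⟩)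
    simp only [hy]
    rw [Submodule.coe_sum] at this
    exact this.symm
  · rw [add_comm]
    exact Subspace.finrank_add_finrank_dualCoannihilator_eq W

/-- dual pairs for `J₀ ≤ J` -/
theorem exists_dual_ideal {J₀ : Ideal R} (hfin : FinJ J₀) (J : Ideal R) (x : Pt) :
    ∃ (c : ℕ) (y : Fin c → R) (ξ : Fin c → Pt), (∀ j, y j ∈ J) ∧ (∀ i, ξ i ∈ TanI J₀ x) ∧
      (∀ i j, dAt x (ξ i) (y j) = if i = j then 1 else 0) ∧
      (∀ a ∈ J, ∃ co : Fin c → ℂ, ∀ η ∈ TanI J₀ x, dAt x η a = ∑ j, co j * dAt x η (y j)) ∧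
      Module.finrank ℂ (TanI (J₀ ⊔ J) x) + c = Module.finrank ℂ (TanI J₀ x) := by
  have := hfin.finite_tan x
  let δ : J.restrictScalars ℂ →ₗ[ℂ] Module.Dual ℂ (TanI J₀ x) :=
    (TanI J₀ x).subtype.dualMap ∘ₗ dL x ∘ₗ (J.restrictScalars ℂ).subtype
  obtain ⟨c, y, ξ, h1, h2, h3⟩ := exists_dual_pair δ
  refine ⟨c, fun j => y j, fun i => ξ i, fun j => (y j).2, fun i => (ξ i).2, h1, ?_, ?_⟩
  · intro a ha
    obtain ⟨co, hco⟩ := h2 ⟨a, ha⟩
    refine ⟨co, fun η hη => ?_⟩
    have := LinearMap.congr_fun hco ⟨η, hη⟩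
    rw [LinearMap.sum_apply] at this
    exact this
  · rw [← h3, ← Submodule.finrank_map_subtype_eq]
    suffices hs : TanI (J₀ ⊔ J) x
        = Submodule.map (TanI J₀ x).subtype (LinearMap.range δ).dualCoannihilator by rw [hs]
    ext η
    rw [TanI_sup]
    constructor
    · rintro ⟨h4, h5⟩
      refine ⟨⟨η, h4⟩, ?_, rfl⟩
      rw [SetLike.mem_coe, Submodule.mem_dualCoannihilator]
      rintro _ ⟨a, rfl⟩
      exact h5 a a.2
    · rintro ⟨η, hη, rfl⟩
      rw [SetLike.mem_coe, Submodule.mem_dualCoannihilator] at hη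
      exact ⟨η.2, fun a ha => hη _ ⟨⟨a, ha⟩, rfl⟩⟩

theorem TanI_mx (x : Pt) : TanI (mx x) x = ⊥ := by
  rw [eq_bot_iff]
  intro ξ hξ
  rw [Submodule.mem_bot]
  funext v
  have := hξ _ (X_sub_mem_mx x v)
  rwa [dAt_sub, dAt_X, dAt_C, sub_zero] at this

/-- the maximal ideal is generated by `finrank (TanI J x)` elements modulo `J + m²` -/
theorem exists_gen {J : Ideal R} (hfin : FinJ J) {x : Pt} (hJ : J ≤ mx x) :
    ∃ z : Fin (Module.finrank ℂ (TanI J x)) → R, (∀ i, z i ∈ mx x) ∧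
      mx x ≤ Ideal.span (Set.range z) ⊔ J ⊔ mx x ^ 2 := by
  obtain ⟨c, z, ξ, hz, -, -, h2, h3⟩ := exists_dual_ideal hfin (mx x) x
  rw [sup_eq_right.2 hJ, TanI_mx, finrank_bot, zero_add] at h3
  subst h3
  refine ⟨z, hz, fun a ha => ?_⟩
  obtain ⟨co, hco⟩ := h2 a ha
  have h4 : ∑ j, C (co j) * z j ∈ Ideal.span (Set.range z) :=
    Ideal.sum_mem _ fun j _ => Ideal.mul_mem_left _ _ (Ideal.subset_span ⟨j, rfl⟩)
  have h5 : a - ∑ j, C (co j) * z j ∈ J ⊔ mx x ^ 2 := by
    refine mem_sup_sq_of_dAt hfin hJ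
      (sub_mem ha (Ideal.sum_mem _ fun j _ => Ideal.mul_mem_left _ _ (hz j))) fun η hη => ?_
    rw [dAt_sub, dAt_sum, hco η hη]
    simp only [dAt_C_mul, sub_self]
  rw [sup_assoc]
  exact Submodule.mem_sup.2 ⟨_, h4, _, h5, by ring⟩

/-! ### the dimension of affine space -/

/-- substitute the coordinates of `x` for the variables outside `V` -/
def subst (V : Finset Var) (x : Pt) : R →ₐ[ℂ] R := aeval fun v => if v ∈ V then X v else C (x v)

theorem sub_subst_mem (V : Finset Var) (x : Pt) {J : Ideal R}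
    (h : ∀ v ∉ V, (X v - C (x v) : R) ∈ J) (r : R) : r - subst V x r ∈ J := by
  induction r using MvPolynomial.induction_on with
  | C c => simp [subst]
  | add p q hp hq =>
    convert add_mem hp hq using 1
    rw [map_add]; ring
  | mul_X p v hp =>
    rw [map_mul]
    by_cases hv : v ∈ V
    · have : subst V x (X v) = X v := by simp [subst, hv]
      rw [this, ← sub_mul]
      exact Ideal.mul_mem_right _ _ hp
    · have : subst V x (X v) = C (x v) := by simp [subst, hv]
      rw [this]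
      convert add_mem (Ideal.mul_mem_right (C (x v)) _ hp) (Ideal.mul_mem_left _ p (h v hv)) using 1
      ring

theorem ker_subst_le (V : Finset Var) (x : Pt) {J : Ideal R}
    (h : ∀ v ∉ V, (X v - C (x v) : R) ∈ J) : RingHom.ker (subst V x) ≤ J := fun r hr => by
  have := sub_subst_mem V x h r
  rwa [RingHom.mem_ker.1 hr, sub_zero] at this

theorem X_sub_mem_ker {V : Finset Var} (x : Pt) {v : Var} (hv : v ∉ V) :
    (X v - C (x v) : R) ∈ RingHom.ker (subst V x) := by
  simp [RingHom.mem_ker, subst, hv]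

theorem card_le_hq_ker (x : Pt) (V : Finset Var) :
    (V.card : ℕ∞) ≤ hq (RingHom.ker (subst V x)) (mx x) := by
  classical
  induction V using Finset.induction_on with
  | empty => simp
  | insert v V hv ih =>
    have : (RingHom.ker (subst (insert v V) x)).IsPrime := RingHom.ker_isPrime _
    rw [Finset.card_insert_of_notMem hv]
    push_cast
    refine (add_le_add_left ih 1).trans (hq_succ_le (p := RingHom.ker (subst (insert v V) x))
      (ker_subst_le V x fun w _ => X_sub_mem_mx x w) le_rfl fun q _ _ hq => ?_)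
    refine lt_of_lt_of_le (lt_of_le_of_ne (ker_subst_le _ x fun w hw =>
      X_sub_mem_ker x fun h => hw (Finset.mem_insert_of_mem h)) fun e => ?_) hq
    have h1 := X_sub_mem_ker x hv
    rw [← e, RingHom.mem_ker] at h1
    have h2 : (X v - C (x v) : R) = 0 := by simpa [subst] using h1
    have h3 := congrArg (eval fun _ => x v + 1) h2
    simp at h3

theorem varI_eq_ker {V : Finset Var} {x : Pt} (hx : ∀ v ∉ V, x v = 0) :
    varI V = RingHom.ker (subst V x) :=
  le_antisymm (varI_le fun v hv => by simpa [hx v hv] using X_sub_mem_ker x hv)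
    (ker_subst_le V x fun v hv => by simpa [hx v hv] using X_mem_varI hv)

theorem varI_isPrime (V : Finset Var) : (varI V).IsPrime := by
  rw [varI_eq_ker (x := 0) fun _ _ => rfl]
  exact RingHom.ker_isPrime _

theorem card_le_hq_varI {V : Finset Var} {x : Pt} (hx : ∀ v ∉ V, x v = 0) :
    (V.card : ℕ∞) ≤ hq (varI V) (mx x) := by
  rw [varI_eq_ker hx]; exact card_le_hq_ker x V

end Crest.Agent.N265.Jac
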