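import Crest.Agent.N265.Jac.Irr
import Crest.Agent.R188.Noe3

/-!
# Row 265 (helper83): fibre inequality, regularity, Hartogs, dimension of images
-/

set_option autoImplicit false
noncomputable section
open MvPolynomial

namespace Crest.Agent.N265.Jac

section generic

variable {A : Type*} [CommRing A]

theorem hq_self (m : Ideal A) [m.IsPrime] : hq m m = 0 := by
  refine le_antisymm ((hq_le_iff le_rfl).2 fun s h1 h2 => ?_) zero_le
  by_contra hc
  have hpos : 0 < s.length := Nat.pos_of_ne_zero fun e => hc (by simp [e])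
  have hlt : s.head < s.last := s.strictMono (Fin.lt_def.2 hpos)
  exact lt_irrefl _ (lt_of_lt_of_le hlt (le_trans (α := Ideal A) h2 h1))

/-- **fibre inequality** -/
theorem hq_le_fibre {S : Type*} [CommRing S] (φ : A →+* S) {J : Ideal A} {J' m' : Ideal S}
    [m'.IsPrime] [IsNoetherianRing (A ⧸ J)] [IsNoetherianRing (S ⧸ J')] (h : J ≤ J'.comap φ)
    (hJ' : J' ≤ m') :
    hq J' m' ≤ hq J (m'.comap φ) + hq (J' ⊔ (m'.comap φ).map φ) m' := by
  let ψ : A ⧸ J →+* S ⧸ J' := Ideal.quotientMap J' φ h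
  let : Algebra (A ⧸ J) (S ⧸ J') := ψ.toAlgebra
  have hm : J ≤ m'.comap φ := h.trans (Ideal.comap_mono hJ')
  have h1 : ((m'.comap φ).map (Ideal.Quotient.mk J)).IsPrime :=
    Ideal.isPrime_map_quotientMk_of_isPrime hm
  have h2 : (m'.map (Ideal.Quotient.mk J')).IsPrime := Ideal.isPrime_map_quotientMk_of_isPrime hJ'
  have h3 : (m'.map (Ideal.Quotient.mk J')).LiesOver ((m'.comap φ).map (Ideal.Quotient.mk J)) := by
    refine ⟨Ideal.ext fun a => ?_⟩
    obtain ⟨a, rfl⟩ := Ideal.Quotient.mk_surjective a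
    rw [Ideal.mem_quotient_iff_mem hm, Ideal.mem_comap, Ideal.under_def, Ideal.mem_comap]
    change _ ↔ Ideal.Quotient.mk J' (φ a) ∈ _
    rw [Ideal.mem_quotient_iff_mem hJ']
  have h4 := Ideal.height_le_height_add_of_liesOver ((m'.comap φ).map (Ideal.Quotient.mk J))
    (m'.map (Ideal.Quotient.mk J'))
  have h5 : (J' ⊔ (m'.comap φ).map φ).map (Ideal.Quotient.mk J')
      = ((m'.comap φ).map (Ideal.Quotient.mk J)).map (algebraMap (A ⧸ J) (S ⧸ J')) := by
    rw [Ideal.map_sup, Ideal.map_quotient_self, bot_sup_eq, Ideal.map_map, Ideal.map_map]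
    rfl
  rw [← hq_map J' (le_sup_left : J' ≤ J' ⊔ _), h5]
  exact h4

theorem isRegular_of_gen {J m : Ideal A} [m.IsPrime] [IsNoetherianRing (A ⧸ J)] {n : ℕ}
    (z : Fin n → A) (hz : ∀ i, z i ∈ m) (hgen : m ≤ Ideal.span (Set.range z) ⊔ J ⊔ m ^ 2)
    (hn : (n : ℕ∞) ≤ hq J m) [(m.map (Ideal.Quotient.mk J)).IsPrime] :
    IsRegularLocalRing (Localization.AtPrime (m.map (Ideal.Quotient.mk J))) := by
  let B := Localization.AtPrime (m.map (Ideal.Quotient.mk J))
  let ψ : A →+* B := (algebraMap (A ⧸ J) B).comp (Ideal.Quotient.mk J)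
  have hmax : m.map ψ = IsLocalRing.maximalIdeal B := by
    rw [← Ideal.map_map]; exact Localization.AtPrime.map_eq_maximalIdeal
  have hspan : Ideal.span (Set.range fun i => ψ (z i)) = IsLocalRing.maximalIdeal B := by
    refine le_antisymm ?_ ?_
    · rw [Ideal.span_le, ← hmax]
      rintro _ ⟨i, rfl⟩
      exact Ideal.mem_map_of_mem _ (hz i)
    · refine Submodule.le_of_le_smul_of_le_jacobson_bot
        (IsLocalRing.maximalIdeal B).fg_of_isNoetherianRing
        (IsLocalRing.maximalIdeal_le_jacobson _) ?_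
      have h0 : J.map ψ = ⊥ := by rw [← Ideal.map_map, Ideal.map_quotient_self, Ideal.map_bot]
      have := Ideal.map_mono (f := ψ) hgen
      rw [Ideal.map_sup, Ideal.map_sup, h0, sup_bot_eq, Ideal.map_pow, hmax, Ideal.map_span,
        ← Set.range_comp, pow_two] at this
      exact this
  have hdim : ringKrullDim B = hq J m :=
    IsLocalization.AtPrime.ringKrullDim_eq_height (m.map (Ideal.Quotient.mk J)) B
  exact (R188.Str.isRegularLocalRing_of_span _ hspan (by rw [hdim]; exact_mod_cast hn)).1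

theorem krull_quot_le_hq {B : Type*} [CommRing B] [IsLocalRing B] {m : Ideal A} [m.IsPrime]
    (ψ : A →+* B) (hinj : Function.Injective (PrimeSpectrum.comap ψ))
    (hψm : ∀ a, ψ a ∈ IsLocalRing.maximalIdeal B → a ∈ m) (P : Ideal B) [hP : P.IsPrime] :
    ringKrullDim (B ⧸ P) ≤ hq (P.comap ψ) m := by
  have hpm : P.comap ψ ≤ m := fun a ha => hψm a (IsLocalRing.le_maximalIdeal hP.ne_top ha)
  refine iSup_le fun s => ?_
  have hsm : StrictMono (PrimeSpectrum.comap ψ ∘ PrimeSpectrum.comap (Ideal.Quotient.mk P)) :=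
    Monotone.strictMono_of_injective (fun p q h => Ideal.comap_mono (Ideal.comap_mono h))
      (hinj.comp (PrimeSpectrum.comap_injective_of_surjective _ Ideal.Quotient.mk_surjective))
  have := (hq_le_iff hpm).1 le_rfl (s.map _ hsm) ?_ ?_
  · exact_mod_cast this
  · intro a ha
    rw [LTSeries.head_map]
    change Ideal.Quotient.mk P (ψ a) ∈ s.head.asIdeal
    rw [Ideal.Quotient.eq_zero_iff_mem.2 (Ideal.mem_comap.1 ha)]
    exact zero_mem _
  · intro a ha
    rw [LTSeries.last_map] at ha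
    refine hψm a (IsLocalRing.le_maximalIdeal
      (J := s.last.asIdeal.comap (Ideal.Quotient.mk P)) ?_ ha)
    exact (Ideal.comap_isPrime _ _).ne_top

theorem exists_assoc_of_not_dvd {B : Type*} [CommRing B] [IsRegularLocalRing B] {d : ℕ}
    (hdim : ringKrullDim B = (d + 1 : ℕ)) {f g : B} (hgm : g ∈ IsLocalRing.maximalIdeal B)
    (hg0 : g ≠ 0) (hf : ¬ g ∣ f) :
    ∃ P : Ideal B, P.IsPrime ∧ (∀ r, g ∣ r * f → r ∈ P) ∧ (d : WithBot ℕ∞) ≤ ringKrullDim (B ⧸ P) := by
  have hdom : IsDomain B := R188.Str.isDomain_of_isRegularLocalRing B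
  have hdep : R188.Noe.Dep B d (QuotSMulTop g B) :=
    (R188.Noe.CM.of_regular B hdim).dep.quot hgm (IsSMulRegular.of_ne_zero hg0)
  have hf0 : (Submodule.Quotient.mk f : QuotSMulTop g B) ≠ 0 := by
    intro h
    rw [Submodule.Quotient.mk_eq_zero, Submodule.mem_smul_pointwise_iff_exists] at h
    obtain ⟨b, -, hb⟩ := h
    exact hf ⟨b, hb.symm⟩
  obtain ⟨P, hP, hle⟩ := exists_le_isAssociatedPrime_of_isNoetherianRing B _ hf0
  refine ⟨P, hP.isPrime, fun r ⟨a, ha⟩ => hle ?_, R188.Noe.Dep.le_ringKrullDim (P := P) hP hdep⟩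
  rw [Submodule.mem_colon_singleton, Submodule.mem_bot, ← Submodule.Quotient.mk_smul,
    Submodule.Quotient.mk_eq_zero, Submodule.mem_smul_pointwise_iff_exists]
  exact ⟨a, trivial, ha.symm⟩

/-- in a regular local ring the poles of a fraction have codimension one -/
theorem exists_prime_of_not_dvd {J m : Ideal A} [hm : m.IsPrime] (hJ : J ≤ m)
    [(m.map (Ideal.Quotient.mk J)).IsPrime]
    [IsRegularLocalRing (Localization.AtPrime (m.map (Ideal.Quotient.mk J)))] {n : ℕ}
    (hn : hq J m = n) {f g : A} (hg : ∀ r, r ∉ m → r * g ∉ J)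
    (hf : ¬ ∃ r a, r ∉ m ∧ r * f - a * g ∈ J) :
    ∃ p : Ideal A, p.IsPrime ∧ p ≤ m ∧ (∀ r a, r * f - a * g ∈ J → r ∈ p) ∧
      (n : ℕ∞) ≤ hq p m + 1 := by
  cases n with
  | zero => exact ⟨m, hm, le_rfl, fun r a h => by_contra fun hr => hf ⟨r, a, hr, h⟩, by simp⟩
  | succ d =>
  let B := Localization.AtPrime (m.map (Ideal.Quotient.mk J))
  let ψ : A →+* B := (algebraMap (A ⧸ J) B).comp (Ideal.Quotient.mk J)
  have hmem : ∀ r, Ideal.Quotient.mk J r ∈ m.map (Ideal.Quotient.mk J) ↔ r ∈ m := fun r =>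
    Ideal.mem_quotient_iff_mem hJ
  have hψ0 : ∀ a, ψ a = 0 ↔ ∃ r, r ∉ m ∧ r * a ∈ J := by
    intro a
    change algebraMap (A ⧸ J) B (Ideal.Quotient.mk J a) = 0 ↔ _
    rw [IsLocalization.map_eq_zero_iff (m.map (Ideal.Quotient.mk J)).primeCompl]
    constructor
    · rintro ⟨⟨r, hr⟩, h⟩
      obtain ⟨r, rfl⟩ := Ideal.Quotient.mk_surjective r
      exact ⟨r, fun h' => hr ((hmem r).2 h'), Ideal.Quotient.eq_zero_iff_mem.1 h⟩
    · rintro ⟨r, hr, h⟩
      exact ⟨⟨Ideal.Quotient.mk J r, fun h' => hr ((hmem r).1 h')⟩,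
        Ideal.Quotient.eq_zero_iff_mem.2 h⟩
  have hψm : ∀ a, ψ a ∈ IsLocalRing.maximalIdeal B ↔ a ∈ m := fun a =>
    (IsLocalization.AtPrime.to_map_mem_maximal_iff B (m.map (Ideal.Quotient.mk J)) _).trans (hmem a)
  have hgm : g ∈ m := by_contra fun h => hf ⟨g, f, h, by rw [mul_comm, sub_self]; exact zero_mem _⟩
  have hg0 : ψ g ≠ 0 := fun h => let ⟨r, hr, h'⟩ := (hψ0 g).1 h; hg r hr h'
  have hdim : ringKrullDim B = (d + 1 : ℕ) := by
    rw [IsLocalization.AtPrime.ringKrullDim_eq_height (m.map (Ideal.Quotient.mk J)) B]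
    exact congrArg _ hn
  have hf0 : ¬ ψ g ∣ ψ f := by
    rintro ⟨b, hb⟩
    obtain ⟨⟨a, ⟨s, hs⟩⟩, hab⟩ := IsLocalization.surj (m.map (Ideal.Quotient.mk J)).primeCompl b
    obtain ⟨a, rfl⟩ := Ideal.Quotient.mk_surjective a
    obtain ⟨s, rfl⟩ := Ideal.Quotient.mk_surjective s
    have h1 : ψ (s * f - a * g) = 0 := by
      change b * ψ s = ψ a at hab
      rw [map_sub, map_mul, map_mul, hb, ← hab]
      ring
    obtain ⟨t, ht, h2⟩ := (hψ0 _).1 h1
    refine hf ⟨t * s, t * a, fun h' => (hm.mem_or_mem h').elim ht fun h'' => hs ((hmem s).2 h''), ?_⟩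
    convert h2 using 1
    ring
  obtain ⟨P, hP, hle, hd⟩ := exists_assoc_of_not_dvd hdim ((hψm g).2 hgm) hg0 hf0
  have hinj : Function.Injective (PrimeSpectrum.comap ψ) := by
    rw [PrimeSpectrum.comap_comp]
    exact (PrimeSpectrum.comap_injective_of_surjective _ Ideal.Quotient.mk_surjective).comp
      (PrimeSpectrum.localization_comap_injective B (m.map (Ideal.Quotient.mk J)).primeCompl)
  refine ⟨P.comap ψ, Ideal.comap_isPrime _ _,
    fun a ha => (hψm a).1 (IsLocalRing.le_maximalIdeal hP.ne_top ha), fun r a h => hle _ ⟨ψ a, ?_⟩, ?_⟩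
  · have h1 : ψ (r * f - a * g) = 0 := (hψ0 _).2 ⟨1, (hm.ne_top <| (Ideal.eq_top_iff_one _).2 ·),
      by rwa [one_mul]⟩
    rw [map_sub, map_mul, map_mul, sub_eq_zero] at h1
    rw [h1, mul_comm]
  · have h2 : (d : ℕ∞) ≤ hq (P.comap ψ) m := by
      exact_mod_cast hd.trans (krull_quot_le_hq ψ hinj (fun a => (hψm a).1) P)
    push_cast
    gcongr

theorem transcendental_of_scaling {B : Type*} [CommRing B] [IsDomain B] [Algebra ℂ B] [Algebra A B]
    (hinj : Function.Injective (algebraMap A B)) {x : B} (hx : x ≠ 0)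
    (h : ∀ c : ℂ, c ≠ 0 → ∃ σ : B →+* B, (∀ a, σ (algebraMap A B a) = algebraMap A B a) ∧
      σ x = algebraMap ℂ B c * x) : Transcendental A x := by
  rintro ⟨F, hF0, hF⟩
  refine hF0 (Polynomial.map_injective _ hinj ?_)
  rw [Polynomial.map_zero]
  refine Polynomial.eq_zero_of_infinite_isRoot _ (Set.infinite_of_injective_forall_mem
    (f := fun n : ℕ => algebraMap ℂ B ((n : ℂ) + 1) * x) ?_ fun n => ?_)
  · intro m n h
    have := (algebraMap ℂ B).injective (mul_right_cancel₀ hx h)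
    exact_mod_cast add_right_cancel this
  · obtain ⟨σ, h1, h2⟩ := h ((n : ℂ) + 1) (by exact_mod_cast Nat.succ_ne_zero n)
    have h3 := congrArg σ hF
    rw [Polynomial.aeval_def, Polynomial.hom_eval₂, map_zero, h2,
      (RingHom.ext h1 : σ.comp (algebraMap A B) = algebraMap A B)] at h3
    rw [Set.mem_ofPred_eq, Polynomial.IsRoot, Polynomial.eval_map]
    exact h3

end generic

/-! ### `kill` and `restr` -/

theorem kill_X_mem {B : Finset ℕ} {v : Var} (h : v.1 ∈ B) : kill B (X v) = X v := by simp [kill, h]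
theorem kill_X_notMem {B : Finset ℕ} {v : Var} (h : v.1 ∉ B) : kill B (X v) = 0 := by simp [kill, h]
theorem kill_C (B : Finset ℕ) (c : ℂ) : kill B (C c) = C c := by simp [kill]

theorem kill_kill {B B' : Finset ℕ} (h : B ⊆ B') (r : R) : kill B' (kill B r) = kill B r := by
  induction r using MvPolynomial.induction_on with
  | C c => simp
  | add p q hp hq => simp [hp, hq]
  | mul_X p v hp =>
    by_cases hv : v.1 ∈ B
    · rw [map_mul, map_mul, hp, kill_X_mem hv, kill_X_mem (h hv)]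
    · rw [map_mul, kill_X_notMem hv, mul_zero, map_zero]

theorem comap_kill_mx (B : Finset ℕ) (y : Pt) :
    (mx y).comap (kill B : R →+* R) = mx (restr B y) :=
  Ideal.ext fun r => by rw [Ideal.mem_comap, mem_mx, mem_mx, ← eval_kill]; rfl

theorem dAt_kill (B : Finset ℕ) (y ξ : Pt) (r : R) :
    dAt y ξ (kill B r) = dAt (restr B y) (restr B ξ) r := by
  induction r using MvPolynomial.induction_on with
  | C c => simp
  | add p q hp hq => rw [map_add, dAt_add, dAt_add, hp, hq]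
  | mul_X p v hp =>
    rw [map_mul, dAt_mul, dAt_mul, hp, eval_kill, eval_kill, dAt_X]
    by_cases hv : v.1 ∈ B
    · rw [kill_X_mem hv, dAt_X]; simp [restr, hv]
    · rw [kill_X_notMem hv, dAt_zero]; simp [restr, hv]

theorem sub_kill_mem (X : Spc) (r : R) : r - kill X.B r ∈ X.I := fun x hx => by
  rw [map_sub, eval_kill, X.restr_eq hx, sub_self]

theorem mem_comap_kill {J : Ideal R} {B : Finset ℕ} {r : R} :
    r ∈ J.comap (kill B : R →+* R) ↔ kill B r ∈ J := Ideal.mem_comap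

theorem FinJ.comap_kill {J : Ideal R} (h : FinJ J) (B : Finset ℕ) :
    FinJ (J.comap (kill B : R →+* R)) := by
  obtain ⟨V, hV⟩ := h
  refine ⟨V, fun v hv => ?_⟩
  rw [mem_comap_kill]
  by_cases hb : v.1 ∈ B
  · rw [kill_X_mem hb]; exact hV v hv
  · rw [kill_X_notMem hb]; exact zero_mem _

theorem StabI.comap_kill {J : Ideal R} (h : StabI J) (B : Finset ℕ) :
    StabI (J.comap (kill B : R →+* R)) := fun r hr => by
  rw [mem_comap_kill] at hr ⊢
  rw [← gam_kill]
  exact h _ hr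

theorem mx_le_span (x : Pt) : mx x ≤ Ideal.span (Set.range fun v => (X v - C (x v) : R)) := by
  intro r hr
  have := sub_subst_mem ∅ x (J := Ideal.span (Set.range fun v => (X v - C (x v) : R)))
    (fun v _ => Ideal.subset_span ⟨v, rfl⟩) r
  have h1 : (subst ∅ x : R →+* R) = C.comp (eval x) := by
    ext v <;> simp [subst]
  have h2 : subst ∅ x r = C (eval x r) := congrArg (fun φ : R →+* R => φ r) h1
  rwa [h2, mem_mx.1 hr, map_zero, sub_zero] at this

theorem map_kill_mx_le (B : Finset ℕ) (y : Pt) : (mx (restr B y)).map (kill B : R →+* R) ≤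
    Ideal.span {r | ∃ v : Var, v.1 ∈ B ∧ r = X v - C (y v)} := by
  refine (Ideal.map_mono (mx_le_span _)).trans ?_
  rw [Ideal.map_span, Ideal.span_le]
  rintro _ ⟨_, ⟨v, rfl⟩, rfl⟩
  change kill B _ ∈ _
  rw [map_sub, kill_C]
  by_cases hv : v.1 ∈ B
  · rw [kill_X_mem hv]
    exact Ideal.subset_span ⟨v, hv, by simp [restr, hv]⟩
  · rw [kill_X_notMem hv]
    simp [restr, hv]

/-- `restr` as a linear map -/
def restrL (B : Finset ℕ) : Pt →ₗ[ℂ] Pt where
  toFun := restr B
  map_add' a b := by funext v; by_cases h : v.1 ∈ B <;> simp [restr, h]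
  map_smul' c a := by funext v; by_cases h : v.1 ∈ B <;> simp [restr, h]

theorem restrL_apply (B : Finset ℕ) (x : Pt) : restrL B x = restr B x := rfl

theorem rel_restr_of {B B' : Finset ℕ} (h : B' ⊆ B) {x : Pt} (hx : Rel B x) : Rel B' (restr B' x) :=
  fun b hb => let ⟨v, hv, h'⟩ := hx b (h hb); ⟨v, hv, by simpa [restr, hv, hb] using h'⟩

/-- freeze the variables outside the blocks `B` at the values of `z` -/
def frz (B : Finset ℕ) (z : Pt) : R →ₐ[ℂ] R := aeval fun v => if v.1 ∈ B then X v else C (z v)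

theorem eval_frz (B : Finset ℕ) (z x : Pt) (r : R) :
    eval x (frz B z r) = eval (fun v => if v.1 ∈ B then x v else z v) r := by
  induction r using MvPolynomial.induction_on with
  | C c => simp [frz]
  | add p q hp hq => rw [map_add, map_add, map_add, hp, hq]
  | mul_X p v hp =>
    rw [map_mul, map_mul, map_mul, hp, eval_X]
    by_cases hv : v.1 ∈ B <;> simp [frz, hv]

theorem dAt_frz (B : Finset ℕ) (z ξ : Pt) (r : R) :
    dAt (restr B z) ξ (frz B z r) = dAt z (restr B ξ) r := by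
  have h0 : (fun v => if v.1 ∈ B then restr B z v else z v) = z := by
    funext v; by_cases hv : v.1 ∈ B <;> simp [restr, hv]
  induction r using MvPolynomial.induction_on with
  | C c => simp [frz]
  | add p q hp hq => rw [map_add, dAt_add, dAt_add, hp, hq]
  | mul_X p v hp =>
    rw [map_mul, dAt_mul, dAt_mul, hp, eval_frz, eval_frz, h0, dAt_X]
    by_cases hv : v.1 ∈ B <;> simp [frz, restr, hv]

/-! ### dimension of images -/

theorem scal_kill {B : Finset ℕ} {w : Var → ℂ} (h : ∀ v : Var, v.1 ∈ B → w v = 1) (r : R) :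
    scal w (kill B r) = kill B r := by
  induction r using MvPolynomial.induction_on with
  | C c => simp
  | add p q hp hq => simp [hp, hq]
  | mul_X p v hp =>
    by_cases hv : v.1 ∈ B
    · rw [map_mul, map_mul, hp, kill_X_mem hv, scal_X, h v hv, map_one, one_mul]
    · rw [map_mul, kill_X_notMem hv, mul_zero, map_zero]

theorem vdeg_some (v : Var) (b : ℕ) : vdeg v (some b) = if v.1 = b then 1 else 0 := by
  simp [vdeg, eB, eT, Finsupp.single_apply]

/-- forgetting a block in which `P` is relevant lowers the dimension -/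
theorem pdim_comap_succ_le {P : Ideal R} (hP : P.IsPrime) (hfin : FinJ P) (hs : StabI P)
    {B : Finset ℕ} {v : Var} (hv : v.1 ∉ B) (hvP : (X v : R) ∉ P) :
    pdim (P.comap (kill B : R →+* R)) + 1 ≤ pdim P := by
  set P₀ := P.comap (kill B : R →+* R) with hP₀
  have hP₀p : P₀.IsPrime := Ideal.comap_isPrime _ _
  let ψ : (R ⧸ P₀) →ₐ[ℂ] (R ⧸ P) := Ideal.quotientMapₐ P (kill B) le_rfl
  let : Algebra (R ⧸ P₀) (R ⧸ P) := ψ.toRingHom.toAlgebra
  have : IsScalarTower ℂ (R ⧸ P₀) (R ⧸ P) :=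
    IsScalarTower.of_algebraMap_eq fun a => (ψ.commutes a).symm
  have hinj : Function.Injective (algebraMap (R ⧸ P₀) (R ⧸ P)) :=
    Ideal.quotientMap_injective (I := P) (f := (kill B : R →+* R))
  have : FaithfulSMul (R ⧸ P₀) (R ⧸ P) := (faithfulSMul_iff_algebraMap_injective _ _).2 hinj
  have : FaithfulSMul ℂ (R ⧸ P₀) :=
    (faithfulSMul_iff_algebraMap_injective _ _).2 (algebraMap ℂ (R ⧸ P₀)).injective
  have halg : ∀ a : R, algebraMap (R ⧸ P₀) (R ⧸ P) (Ideal.Quotient.mk P₀ a)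
      = Ideal.Quotient.mk P (kill B a) := fun a =>
    Ideal.quotientMap_mk (J := P₀) (I := P) (f := (kill B : R →+* R)) (H := le_rfl)
  have htr : Transcendental (R ⧸ P₀) (Ideal.Quotient.mk P (X v)) := by
    refine transcendental_of_scaling hinj (fun h => hvP (Ideal.Quotient.eq_zero_iff_mem.1 h))
      fun c hc => ?_
    have hle : P ≤ P.comap (scal fun w => c ^ (vdeg w (some v.1)) : R →+* R) :=
      fun r hr => Ideal.mem_comap.2 (stab_torus hs (isChar_zpow hc (some v.1)) hr)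
    refine ⟨Ideal.quotientMap P _ hle, fun a => ?_, ?_⟩
    · obtain ⟨a, rfl⟩ := Ideal.Quotient.mk_surjective a
      rw [halg, Ideal.quotientMap_mk, RingHom.coe_coe, scal_kill]
      intro w hw
      rw [vdeg_some, if_neg (fun e : w.1 = v.1 => hv (e ▸ hw)), zpow_zero]
    · rw [Ideal.quotientMap_mk, RingHom.coe_coe, scal_X, vdeg_some, if_pos rfl, zpow_one, map_mul,
        ← Ideal.Quotient.mk_algebraMap, algebraMap_eq]
  have : Algebra.Transcendental (R ⧸ P₀) (R ⧸ P) := ⟨⟨_, htr⟩⟩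
  have h1 := trdeg_add_eq ℂ (R ⧸ P₀) (A := R ⧸ P)
  rw [trdeg_eq_pdim (hfin.comap_kill B) hP₀p, trdeg_eq_pdim hfin hP] at h1
  have h2 : (1 : Cardinal) ≤ Algebra.trdeg (R ⧸ P₀) (R ⧸ P) :=
    Cardinal.one_le_iff_pos.2 (trdeg_pos _ _)
  have h3 : (pdim P₀ : Cardinal) + 1 ≤ pdim P := h1 ▸ add_le_add_right h2 _
  exact_mod_cast h3

theorem pdim_comap_add_le {Q : Ideal R} (hQ : Q.IsPrime) (hfin : FinJ Q) (hs : StabI Q)
    (B T : Finset ℕ) (hd : Disjoint B T) (hT : ∀ b ∈ T, ∃ v : Var, v.1 = b ∧ (X v : R) ∉ Q) :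
    pdim (Q.comap (kill B : R →+* R)) + T.card ≤ pdim (Q.comap (kill (B ∪ T) : R →+* R)) := by
  induction T using Finset.induction_on with
  | empty => simp
  | insert b T hb ih =>
    obtain ⟨v, hv, hvQ⟩ := hT b (Finset.mem_insert_self _ _)
    have hbB : b ∉ B := fun h => Finset.disjoint_left.1 hd h (Finset.mem_insert_self _ _)
    have h1 := ih (hd.mono_right (Finset.subset_insert _ _))
      fun c hc => hT c (Finset.mem_insert_of_mem hc)
    have h2 := pdim_comap_succ_le (P := Q.comap (kill (B ∪ insert b T) : R →+* R))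
      (Ideal.comap_isPrime _ _) (hfin.comap_kill _) (hs.comap_kill _) (B := B ∪ T) (v := v)
      (by rw [hv]; simp [hb, hbB]) (by
        rwa [mem_comap_kill, kill_X_mem (by rw [hv]; simp)])
    have h3 : (Q.comap (kill (B ∪ insert b T) : R →+* R)).comap (kill (B ∪ T) : R →+* R)
        = Q.comap (kill (B ∪ T) : R →+* R) := Ideal.ext fun r => by
      rw [mem_comap_kill, mem_comap_kill, mem_comap_kill, kill_kill (Finset.union_subset_union_right (Finset.subset_insert _ _))]
    rw [h3] at h2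
    rw [Finset.card_insert_of_notMem hb]
    omega

/-- an irreducible closed subset of the image is dominated by an irreducible subspace -/
theorem exists_dominant {Y X Z : Spc} (hi : Z.Irred)
    (hs : ∀ x ∈ Z.pts, ∃ y ∈ Y.pts, restr X.B y = x) :
    ∃ W : Spc, W.Sub Y ∧ W.Irred ∧ W.I.comap (kill X.B : R →+* R) = Z.I := by
  have hst : StabI (Z.I.map (kill X.B : R →+* R)) := by
    intro r hr
    have : Z.I.map (kill X.B : R →+* R) ≤ (Z.I.map (kill X.B : R →+* R)).comap gam := by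
      rw [Ideal.map_le_iff_le_comap]
      intro a ha
      rw [mem_comap_kill, Ideal.mem_comap, gam_kill]
      exact Ideal.mem_map_of_mem _ (Spc.gam_mem_I ha)
    exact this hr
  obtain ⟨t, ht, hc⟩ := exists_components (subI Y _ hst)
  have h1 : t.inf (fun W => W.I.comap (kill X.B : R →+* R)) ≤ Z.I := by
    intro a ha x hx
    obtain ⟨y, hy, rfl⟩ := hs x hx
    obtain ⟨W, hW, hyW⟩ := hc y ⟨hy, by
      rw [Ideal.map_le_iff_le_comap, comap_kill_mx]; exact I_le_mx hx⟩
    rw [← eval_kill]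
    exact (Finset.inf_le (f := fun W : Spc => W.I.comap (kill X.B : R →+* R)) hW ha) y hyW
  obtain ⟨W, hW, h2⟩ := (Ideal.IsPrime.inf_le' hi).1 h1
  refine ⟨W, sub_trans (ht W hW).1 (subI_sub _ _ _), (ht W hW).2.1, le_antisymm h2 ?_⟩
  rw [← Ideal.map_le_iff_le_comap]
  exact (le_subI_I Y _ hst).trans (I_anti (ht W hW).1.2)

theorem pdim_add_le_of_dominant {W : Spc} (hW : W.Irred) {B : Finset ℕ} (hB : B ⊆ W.B) :
    pdim (W.I.comap (kill B : R →+* R)) + (W.B \ B).card ≤ pdim W.I := by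
  obtain ⟨y, hy⟩ := irred_nonempty hW
  have h1 := pdim_comap_add_le hW (finJ_I W) (stabI_I W) B (W.B \ B) Finset.disjoint_sdiff
    fun b hb => by
      obtain ⟨v, hv, h⟩ := W.rel y hy b (Finset.mem_sdiff.1 hb).1
      exact ⟨v, hv, fun h' => h (by simpa using h' y hy)⟩
  have h2 : W.I.comap (kill W.B : R →+* R) = W.I := Ideal.ext fun r => by
    rw [mem_comap_kill]
    have := sub_kill_mem W r
    exact ⟨fun h => by simpa using add_mem this h, fun h => by simpa using sub_mem h this⟩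
  rwa [Finset.union_sdiff_of_subset hB, h2] at h1

end Crest.Agent.N265.Jac
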