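import Crest.Agent.N265.Jac.Scal
import Crest.Agent.R278.Dim

/-!
# Row 265 (helper83): noetherian induction, components, irreducible spaces

`exists_finite_cover`, `spc_induction`, `comp` (components), `exists_components`,
`irred_of_smAt_conn`, `conn_of_irred`, `ldim_irred` (`= pdim X.I` at every point),
`ldim_lt_of_sub`, `eq_of_ldim_le`.
-/

set_option autoImplicit false
noncomputable section
open MvPolynomial

namespace Crest.Agent.N265.Jac

theorem FinJ.exists_max {J₀ : Ideal R} (h : FinJ J₀) (S : Set (Ideal R)) (hS : ∀ J ∈ S, J₀ ≤ J)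
    (hne : S.Nonempty) : ∃ J ∈ S, ∀ J' ∈ S, J ≤ J' → J' = J := by
  have := h.noeth
  obtain ⟨_, ⟨J, hJ, rfl⟩, hmax⟩ := (IsNoetherian.wf (R := R ⧸ J₀) (M := R ⧸ J₀) this).has_min
    (Ideal.map (Ideal.Quotient.mk J₀) '' S) (hne.image _)
  refine ⟨J, hJ, fun J' hJ' hle => ?_⟩
  have h1 : J'.map (Ideal.Quotient.mk J₀) = J.map (Ideal.Quotient.mk J₀) :=
    (eq_of_le_of_not_lt (Ideal.map_mono hle) (hmax _ ⟨J', hJ', rfl⟩)).symm
  have h2 := congrArg (Ideal.comap (Ideal.Quotient.mk J₀)) h1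
  rwa [Ideal.comap_map_of_surjective _ Ideal.Quotient.mk_surjective,
    Ideal.comap_map_of_surjective _ Ideal.Quotient.mk_surjective, ← RingHom.ker_eq_comap_bot,
    Ideal.mk_ker, sup_eq_left.2 (hS J hJ), sup_eq_left.2 (hS J' hJ')] at h2

/-- quasi-compactness for any set of points on which an ideal in finitely many variables vanishes -/
theorem FinJ.exists_finite_cover {J₀ : Ideal R} (h : FinJ J₀) {S : Set Pt}
    (hS : ∀ x ∈ S, J₀ ≤ mx x) {ι : Type*} (f : ι → R) (hf : ∀ x ∈ S, ∃ i, eval x (f i) ≠ 0) :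
    ∃ t : Finset ι, ∀ x ∈ S, ∃ i ∈ t, eval x (f i) ≠ 0 := by
  classical
  obtain ⟨_, ⟨t, rfl⟩, hmax⟩ := h.exists_max
    (Set.range fun t : Finset ι => J₀ ⊔ Ideal.span (f '' t))
    (by rintro _ ⟨t, rfl⟩; exact le_sup_left) ⟨_, ∅, rfl⟩
  refine ⟨t, fun x hx => ?_⟩
  obtain ⟨i, hi⟩ := hf x hx
  by_contra hc
  push Not at hc
  have h1 := hmax _ ⟨insert i t, rfl⟩
    (sup_le_sup_left (Ideal.span_mono (Set.image_mono (by simp))) _)
  have h2 : J₀ ⊔ Ideal.span (f '' t) ≤ mx x :=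
    sup_le (hS x hx) (Ideal.span_le.2 (by rintro _ ⟨j, hj, rfl⟩; exact hc j hj))
  simp only at h1
  rw [← h1] at h2
  exact hi (h2 (Ideal.mem_sup_right (Ideal.subset_span ⟨i, by simp, rfl⟩)))

/-- **quasi-compactness** -/
theorem exists_finite_cover (X : Spc) {ι : Type*} (f : ι → R)
    (hf : ∀ x ∈ X.pts, ∃ i, eval x (f i) ≠ 0) :
    ∃ t : Finset ι, ∀ x ∈ X.pts, ∃ i ∈ t, eval x (f i) ≠ 0 :=
  (finJ_I X).exists_finite_cover (fun _ hx => I_le_mx hx) f hf

theorem I_anti {Z X : Spc} (h : Z.pts ⊆ X.pts) : X.I ≤ Z.I := fun _ hr x hx => hr x (h hx)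

theorem pts_subset_of_I_le {Z X : Spc} (hB : Z.B = X.B) (h : X.I ≤ Z.I) : Z.pts ⊆ X.pts :=
  fun z hz => mem_pts_of_le (hB ▸ Z.rel z hz) (h.trans (I_le_mx hz))

theorem spc_ext_I {Z X : Spc} (hB : Z.B = X.B) (h : Z.I = X.I) : Z = X :=
  Spc.ext hB (Set.Subset.antisymm (pts_subset_of_I_le hB h.ge) (pts_subset_of_I_le hB.symm h.le))

theorem I_isRadical (X : Spc) : X.I.IsRadical := fun r ⟨k, hk⟩ x hx => by
  have := hk x hx
  rw [map_pow] at this
  exact pow_eq_zero_iff_of_pos_or_eq this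
where
  pow_eq_zero_iff_of_pos_or_eq {a : ℂ} {k : ℕ} (h : a ^ k = 0) : a = 0 := pow_eq_zero_iff' .. |>.1 h |>.1

theorem I_eq_top_iff {X : Spc} : X.I = ⊤ ↔ X.pts = ∅ := by
  constructor
  · intro h
    by_contra hc
    obtain ⟨x, hx⟩ := Set.nonempty_iff_ne_empty.2 hc
    exact (mx_isPrime x).ne_top (top_le_iff.1 (h ▸ I_le_mx hx))
  · intro h
    rw [Ideal.eq_top_iff_one]
    intro x hx
    rw [h] at hx
    exact hx.elim

theorem sub_trans {Z Y X : Spc} (h : Z.Sub Y) (h' : Y.Sub X) : Z.Sub X :=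
  ⟨h.1.trans h'.1, h.2.trans h'.2⟩

theorem sub_refl (X : Spc) : X.Sub X := ⟨rfl, subset_rfl⟩

/-- **noetherian induction** -/
theorem spc_induction {P : Spc → Prop}
    (h : ∀ Z : Spc, (∀ Z' : Spc, Z'.Sub Z → Z'.pts ≠ Z.pts → P Z') → P Z) (X : Spc) : P X := by
  by_contra hc
  obtain ⟨_, ⟨Z, ⟨hZ, hP⟩, rfl⟩, hmax⟩ := (finJ_I X).exists_max
    (Spc.I '' {Z | Z.Sub X ∧ ¬ P Z}) (by rintro _ ⟨Z, hZ, rfl⟩; exact I_anti hZ.1.2)
    ⟨_, X, ⟨sub_refl X, hc⟩, rfl⟩
  refine hP (h Z fun Z' hZ' hne => ?_)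
  by_contra hP'
  exact hne (congrArg Spc.pts (spc_ext_I hZ'.1
    (hmax _ ⟨Z', ⟨sub_trans hZ' hZ, hP'⟩, rfl⟩ (I_anti hZ'.2))))

/-- the ideal of the subspace cut out by a relevant homogeneous prime -/
theorem subI_I_of_prime {X : Spc} {P : Ideal R} (hP : P.IsPrime) (hs : StabI P) (hle : X.I ≤ P)
    (hne : (subI X P hs).pts.Nonempty) : (subI X P hs).I = P := by
  refine le_antisymm (fun a ha => ?_) (le_subI_I X P hs)
  obtain ⟨x, hx⟩ := hne
  obtain ⟨ρ, hρ, k, hk⟩ := I_le_rad (Z := subI X P hs) ((finJ_I X).mono hle)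
    ((subI X P hs).rel x hx) (g := 1) (by simp)
    (fun y hy _ h => ⟨mem_pts_of_le hy (hle.trans h), h⟩) ha
  exact hP.mem_of_pow_mem k ((hP.mem_or_mem hk).resolve_left fun h => hρ (hx.2 h))

/-- the irreducible component given by a minimal prime -/
def comp (X : Spc) (P : Ideal R) (hP : P ∈ X.I.minimalPrimes) : Spc :=
  subI X P (stab_minimalPrimes (finJ_I X) (stabI_I X) hP)

theorem mem_comp {X : Spc} {P : Ideal R} {hP : P ∈ X.I.minimalPrimes} {x : Pt} :
    x ∈ (comp X P hP).pts ↔ x ∈ X.pts ∧ P ≤ mx x := Iff.rfl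

theorem comp_sub (X : Spc) (P : Ideal R) (hP : P ∈ X.I.minimalPrimes) : (comp X P hP).Sub X :=
  subI_sub _ _ _

theorem exists_comp {X : Spc} {x : Pt} (hx : x ∈ X.pts) :
    ∃ (P : Ideal R) (hP : P ∈ X.I.minimalPrimes), x ∈ (comp X P hP).pts :=
  let ⟨P, hP, h⟩ := Ideal.exists_minimalPrimes_le (I_le_mx hx); ⟨P, hP, hx, h⟩

/-- a function vanishing on all components but one, and not in the prime of that one -/
theorem exists_sep {J P : Ideal R} (hfin : FinJ J) (hP : P ∈ J.minimalPrimes) :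
    ∃ a, a ∉ P ∧ ∀ Q ∈ J.minimalPrimes, Q ≠ P → a ∈ Q := by
  classical
  have h1 : ∀ Q ∈ J.minimalPrimes, Q ≠ P → ∃ a, a ∉ P ∧ a ∈ Q := by
    intro Q hQ hne
    by_contra hc
    push Not at hc
    have hle : Q ≤ P := fun a ha => by_contra fun h => hc a h ha
    exact hne (le_antisymm hle (hP.2 hQ.1 hle))
  choose! f hf hf' using h1
  refine ⟨∏ Q ∈ hfin.finite_minimalPrimes.toFinset.erase P, f Q, fun h => ?_, fun Q hQ hne => ?_⟩
  · obtain ⟨Q, hQ, h'⟩ := (Ideal.IsPrime.prod_mem_iff (hp := hP.1.1)).1 h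
    rw [Finset.mem_erase, Set.Finite.mem_toFinset] at hQ
    exact hf Q hQ.2 hQ.1 h'
  · rw [← Finset.mul_prod_erase _ _ (Finset.mem_erase.2 ⟨hne, by simpa using hQ⟩)]
    exact Ideal.mul_mem_right _ _ (hf' Q hQ hne)

theorem comp_nonempty (X : Spc) (P : Ideal R) (hP : P ∈ X.I.minimalPrimes) :
    (comp X P hP).pts.Nonempty := by
  obtain ⟨a, ha, h⟩ := exists_sep (finJ_I X) hP
  by_contra hc
  refine ha (hP.1.2 fun x hx => ?_)
  obtain ⟨Q, hQ, hxQ⟩ := exists_comp hx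
  by_cases e : Q = P
  · subst e
    exact (hc ⟨x, hxQ⟩).elim
  · exact hxQ.2 (h Q hQ e)

theorem comp_I (X : Spc) (P : Ideal R) (hP : P ∈ X.I.minimalPrimes) : (comp X P hP).I = P :=
  subI_I_of_prime hP.1.1 _ hP.1.2 (comp_nonempty X P hP)

theorem comp_irred (X : Spc) (P : Ideal R) (hP : P ∈ X.I.minimalPrimes) : (comp X P hP).Irred := by
  rw [Spc.Irred, comp_I]; exact hP.1.1

/-- decomposition into finitely many irreducible components -/
theorem exists_components (X : Spc) : ∃ t : Finset Spc,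
    (∀ Z ∈ t, Z.Sub X ∧ Z.Irred ∧ Z.I ∈ X.I.minimalPrimes) ∧ ∀ x ∈ X.pts, ∃ Z ∈ t, x ∈ Z.pts := by
  classical
  have hf := (finJ_I X).finite_minimalPrimes
  have : Fintype X.I.minimalPrimes := hf.fintype
  refine ⟨Finset.univ.image fun P : X.I.minimalPrimes => comp X P.1 P.2, ?_, fun x hx => ?_⟩
  · intro Z hZ
    obtain ⟨P, -, rfl⟩ := Finset.mem_image.1 hZ
    exact ⟨comp_sub _ _ _, comp_irred _ _ _, by rw [comp_I]; exact P.2⟩
  · obtain ⟨P, hP, h⟩ := exists_comp hx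
    exact ⟨_, Finset.mem_image.2 ⟨⟨P, hP⟩, Finset.mem_univ _, rfl⟩, h⟩

theorem irred_nonempty {X : Spc} (h : X.Irred) : X.pts.Nonempty :=
  Set.nonempty_iff_ne_empty.2 fun e => h.ne_top (I_eq_top_iff.2 e)

/-- an irreducible space is not covered by two proper closed sets -/
theorem irred_cover {X : Spc} (h : X.Irred) {J J' : Ideal R}
    (hc : ∀ x ∈ X.pts, J ≤ mx x ∨ J' ≤ mx x) : J ≤ X.I ∨ J' ≤ X.I := by
  refine (Ideal.IsPrime.mul_le h).1 (Ideal.mul_le.2 fun a ha b hb x hx => ?_)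
  rw [map_mul]
  rcases hc x hx with h1 | h1
  · rw [mem_mx.1 (h1 ha), zero_mul]
  · rw [mem_mx.1 (h1 hb), mul_zero]

/-- two non-empty basic open subsets of an irreducible space meet -/
theorem irred_inter {X : Spc} (h : X.Irred) {f g : R} (hf : ∃ x ∈ X.pts, eval x f ≠ 0)
    (hg : ∃ x ∈ X.pts, eval x g ≠ 0) : ∃ x ∈ X.pts, eval x f ≠ 0 ∧ eval x g ≠ 0 := by
  by_contra hc
  push Not at hc
  have : f * g ∈ X.I := fun x hx => by
    rw [map_mul]
    by_cases h0 : eval x f = 0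
    · rw [h0, zero_mul]
    · rw [hc x hx h0, mul_zero]
  rcases h.mem_or_mem this with h1 | h1
  · obtain ⟨x, hx, h2⟩ := hf; exact h2 (h1 x hx)
  · obtain ⟨x, hx, h2⟩ := hg; exact h2 (h1 x hx)

theorem conn_of_irred {X : Spc} (h : X.Irred) : X.Conn := by
  refine ⟨irred_nonempty h, fun Z₁ Z₂ h₁ h₂ hc hd => ?_⟩
  rcases irred_cover h (J := Z₁.I) (J' := Z₂.I)
    (fun x hx => (hc hx).imp I_le_mx I_le_mx) with h3 | h3
  · exact Or.inr (Set.eq_empty_of_forall_notMem fun x hx =>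
      Set.disjoint_left.1 hd (pts_subset_of_I_le h₁.1.symm h3 (h₂.2 hx)) hx)
  · exact Or.inl (Set.eq_empty_of_forall_notMem fun x hx =>
      Set.disjoint_left.1 hd hx (pts_subset_of_I_le h₂.1.symm h3 (h₁.2 hx)))

theorem eq_locI_of_minimal {J P m : Ideal R} [m.IsPrime] (hp : (locI J m).IsPrime)
    (hP : P ∈ J.minimalPrimes) (hle : P ≤ m) : P = locI J m :=
  le_antisymm (hP.2 ⟨hp, le_locI J m⟩ (locI_le hP.1.1 hle hP.1.2)) (locI_le hP.1.1 hle hP.1.2)

/-- the complement of a component on which `X` is locally irreducible is closed -/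
theorem exists_compl {X : Spc} {P : Ideal R} (hP : P ∈ X.I.minimalPrimes)
    (h : ∀ x ∈ (comp X P hP).pts, (locI X.I (mx x)).IsPrime) :
    ∃ Z : Spc, Z.Sub X ∧ Z.pts = X.pts \ (comp X P hP).pts := by
  have hs := stab_minimalPrimes (finJ_I X) (stabI_I X) hP
  refine ⟨subI X _ ((stabI_I X).colon hs), subI_sub _ _ _, Set.ext fun y => ⟨?_, ?_⟩⟩
  · rintro ⟨hy, h1⟩
    refine ⟨hy, fun h2 => ?_⟩
    have := (finJ_I X).noeth
    obtain ⟨r, hr, h3⟩ := exists_denom (eq_locI_of_minimal (h y h2) hP h2.2).le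
    exact hr (h1 (Submodule.mem_colon.2 fun a ha => h3 a ha))
  · rintro ⟨hy, h1⟩
    refine ⟨hy, fun r hr => ?_⟩
    obtain ⟨a, ha, ha'⟩ := SetLike.not_le_iff_exists.1 fun h2 => h1 ⟨hy, h2⟩
    exact ((mx_isPrime y).mem_or_mem
      (I_le_mx hy (Submodule.mem_colon.1 hr a ha))).resolve_right ha'

/-- locally irreducible and connected ⇒ irreducible -/
theorem irred_of_conn {X : Spc} (hc : X.Conn) (h : ∀ x ∈ X.pts, (locI X.I (mx x)).IsPrime) :
    X.Irred := by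
  obtain ⟨x, hx⟩ := hc.1
  obtain ⟨P, hP, hxP⟩ := exists_comp hx
  obtain ⟨Z, hZ, hZ'⟩ := exists_compl hP fun y hy => h y hy.1
  rcases hc.2 (comp X P hP) Z (comp_sub _ _ _) hZ
    (fun y hy => by rw [hZ']; by_cases h1 : y ∈ (comp X P hP).pts <;> simp [h1, hy])
    (by rw [hZ']; exact Set.disjoint_sdiff_right) with h1 | h1
  · rw [h1] at hxP; exact hxP.elim
  · rw [hZ', Set.sdiff_eq_empty] at h1
    have : X.I = P := le_antisymm hP.1.2 fun a ha y hy => (h1 hy).2 ha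
    rw [Spc.Irred, this]
    exact hP.1.1

/-- **smooth and connected ⇒ irreducible** -/
theorem irred_of_smAt_conn {X : Spc} (hc : X.Conn) (h : ∀ x ∈ X.pts, X.SmAt x) : X.Irred :=
  irred_of_conn hc fun x hx => smAt_locI_prime hx (h x hx)

theorem irred_of_sm_conn {X : Spc} {n : ℕ} (h : X.Sm n) (hc : X.Conn) : X.Irred :=
  irred_of_smAt_conn hc fun _ hx => sm_smAt h hx

/-! ### dimension of irreducible spaces -/

theorem height_mvPolynomial (k : Type*) [Field k] :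
    ∀ (s : ℕ) (m : Ideal (MvPolynomial (Fin s) k)), m.IsMaximal → (s : ℕ∞) ≤ m.height := by
  intro s
  induction s with
  | zero => intro m _; simp
  | succ s ih =>
    intro m hm
    let e := (finSuccEquiv k s).toRingEquiv
    have h1 : (m.map e).IsMaximal := Ideal.map_isMaximal_of_equiv e
    have h2 := Polynomial.isMaximal_comap_C_of_isJacobsonRing (m.map e)
    have h3 : (m.map e).LiesOver ((m.map e).comap Polynomial.C) := ⟨rfl⟩
    rw [← RingEquiv.height_map e, Polynomial.height_eq_height_add_one ((m.map e).comap Polynomial.C)]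
    push_cast
    gcongr
    exact ih _ h2

/-- all maximal ideals of an affine domain have height the transcendence degree -/
theorem height_eq_trdeg (k B : Type) [Field k] [CommRing B] [IsDomain B] [Algebra k B]
    [Algebra.FiniteType k B] : ∃ s : ℕ, Algebra.trdeg k B = s ∧ ringKrullDim B = s ∧
      ∀ m : Ideal B, m.IsMaximal → m.height = s := by
  obtain ⟨s, g, ginj, gint⟩ := exists_integral_inj_algHom_of_fg k B
  let : Algebra (MvPolynomial (Fin s) k) B := g.toRingHom.toAlgebra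
  have : IsScalarTower k (MvPolynomial (Fin s) k) B :=
    IsScalarTower.of_algebraMap_eq fun a => (g.commutes a).symm
  have : Algebra.IsIntegral (MvPolynomial (Fin s) k) B := ⟨gint⟩
  have : FaithfulSMul (MvPolynomial (Fin s) k) B := (faithfulSMul_iff_algebraMap_injective _ _).2 ginj
  have : FaithfulSMul k (MvPolynomial (Fin s) k) :=
    (faithfulSMul_iff_algebraMap_injective _ _).2 (MvPolynomial.C_injective _ _)
  have : IsNoetherianRing B := Algebra.FiniteType.isNoetherianRing k B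
  have hd : ringKrullDim B = s := by
    rw [Crest.Agent.R278.ringKrullDim_eq_of_isIntegral (R := MvPolynomial (Fin s) k) (S := B) ginj,
      MvPolynomial.ringKrullDim_of_isNoetherianRing, ringKrullDim_eq_zero_of_field]
    simp
  refine ⟨s, ?_, hd, fun m hm => le_antisymm ?_ ?_⟩
  · have h := trdeg_add_eq k (MvPolynomial (Fin s) k) (A := B)
    have h0 : Algebra.trdeg (MvPolynomial (Fin s) k) B = 0 := trdeg_eq_zero
    rw [h0, add_zero] at h
    rw [← h, MvPolynomial.trdeg_of_isDomain]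
    simp
  · have := Ideal.height_le_ringKrullDim_of_ne_top hm.ne_top
    rw [hd] at this
    exact_mod_cast this
  · have h1 := Ideal.isMaximal_comap_of_isIntegral_of_isMaximal (R := MvPolynomial (Fin s) k) m
    have h2 : m.LiesOver (m.comap (algebraMap (MvPolynomial (Fin s) k) B)) := ⟨rfl⟩
    rw [Ideal.height_eq_height_add_of_liesOver_of_hasGoingDown
      (m.comap (algebraMap (MvPolynomial (Fin s) k) B)) m]
    exact (height_mvPolynomial k s _ h1).trans le_self_add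

/-- the dimension of `V(P)` as a transcendence degree -/
def pdim (P : Ideal R) : ℕ := Cardinal.toNat (Algebra.trdeg ℂ (R ⧸ P))

theorem trdeg_eq_pdim {P : Ideal R} (hfin : FinJ P) (hP : P.IsPrime) :
    Algebra.trdeg ℂ (R ⧸ P) = pdim P := by
  have := hfin.finiteType
  obtain ⟨s, h1, -⟩ := height_eq_trdeg ℂ (R ⧸ P)
  rw [pdim, h1, Cardinal.toNat_natCast]

theorem krull_eq_pdim {P : Ideal R} (hfin : FinJ P) (hP : P.IsPrime) :
    ringKrullDim (R ⧸ P) = pdim P := by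
  have := hfin.finiteType
  obtain ⟨s, h1, h2, -⟩ := height_eq_trdeg ℂ (R ⧸ P)
  rw [pdim, h1, Cardinal.toNat_natCast, h2]

theorem hq_prime {P : Ideal R} (hfin : FinJ P) (hP : P.IsPrime) {x : Pt} (hx : P ≤ mx x) :
    hq P (mx x) = pdim P := by
  have := hfin.finiteType
  obtain ⟨s, h1, -, h2⟩ := height_eq_trdeg ℂ (R ⧸ P)
  rw [pdim, h1, Cardinal.toNat_natCast]
  refine h2 _ (Ideal.IsMaximal.map_of_surjective_of_ker_le Ideal.Quotient.mk_surjective ?_)
  rwa [Ideal.mk_ker]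

/-- **an irreducible space has the same dimension at all points** -/
theorem ldim_irred {X : Spc} (h : X.Irred) {x : Pt} (hx : x ∈ X.pts) : X.ldim x = pdim X.I :=
  hq_prime (finJ_I X) h (I_le_mx hx)

theorem ldim_mono {Z X : Spc} (h : Z.pts ⊆ X.pts) {x : Pt} (hx : x ∈ Z.pts) :
    Z.ldim x ≤ X.ldim x := hq_anti (I_le_mx hx) (I_anti h)

theorem ldim_ne_top {X : Spc} {x : Pt} (hx : x ∈ X.pts) : X.ldim x ≠ ⊤ :=
  ne_top_of_le_ne_top (ENat.natCast_ne_top _) (ldim_le_tan hx)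

/-- the local dimension is attained on a component -/
theorem exists_comp_ldim {X : Spc} {x : Pt} (hx : x ∈ X.pts) :
    ∃ (P : Ideal R) (hP : P ∈ X.I.minimalPrimes), x ∈ (comp X P hP).pts ∧ X.ldim x = pdim P := by
  have hf := (finJ_I X).finite_minimalPrimes.subset
    (Set.sep_subset X.I.minimalPrimes fun P => P ≤ mx x)
  obtain ⟨P₀, hP₀, h₀⟩ := exists_comp hx
  obtain ⟨P, hP, hmax⟩ := Set.exists_max_image _ pdim hf ⟨P₀, hP₀, h₀.2⟩
  refine ⟨P, hP.1, ⟨hx, hP.2⟩, le_antisymm ?_ ?_⟩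
  · rw [ldim_eq, hq_le_iff (I_le_mx hx)]
    intro s h1 h2
    have := s.head.isPrime
    obtain ⟨Q, hQ, hQ'⟩ := Ideal.exists_minimalPrimes_le h1
    have hQx : Q ≤ mx x :=
      hQ'.trans (le_trans (s.head_le (Fin.last _) : s.head.asIdeal ≤ s.last.asIdeal) h2)
    have h3 := (hq_le_iff hQx).1 le_rfl s hQ' h2
    rw [hq_prime ((finJ_I X).mono hQ.1.2) hQ.1.1 hQx] at h3
    exact h3.trans (by exact_mod_cast hmax Q ⟨hQ, hQx⟩)
  · rw [← hq_prime ((finJ_I X).mono hP.1.1.2) hP.1.1.1 hP.2]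
    exact hq_anti hP.2 hP.1.1.2

/-- a proper closed subspace of an irreducible space has smaller dimension -/
theorem ldim_lt_of_sub {Z X : Spc} (hX : X.Irred) (h : Z.Sub X) (hne : Z.pts ≠ X.pts) {x : Pt}
    (hx : x ∈ Z.pts) : Z.ldim x + 1 ≤ X.ldim x := by
  have : X.I.IsPrime := hX
  refine hq_succ_le (p := X.I) (I_le_mx hx) le_rfl fun q _ _ hq => ?_
  refine lt_of_lt_of_le (lt_of_le_of_ne (I_anti h.2) fun e => ?_) hq
  exact hne (congrArg Spc.pts (spc_ext_I h.1 e.symm))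

theorem eq_of_ldim_le {Z X : Spc} (hX : X.Irred) (h : Z.Sub X) {x : Pt} (hx : x ∈ Z.pts)
    (hd : X.ldim x ≤ Z.ldim x) : Z = X := by
  refine Spc.ext h.1 ?_
  by_contra hne
  have h1 := (ldim_lt_of_sub hX h hne hx).trans hd
  obtain ⟨n, hn⟩ := ENat.ne_top_iff_exists.1 (ldim_ne_top hx)
  rw [← hn] at h1
  have h2 : n + 1 ≤ n := by exact_mod_cast h1
  omega

/-- an irreducible closed subspace whose dimension equals the tangent dimension of `X` along it is
a smooth connected component of `X` -/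
theorem clopen_of_tan_le {Z X : Spc} (hZ : Z.Irred) (h : Z.Sub X)
    (ht : ∀ z ∈ Z.pts, (Module.finrank ℂ (X.Tan z) : ℕ∞) ≤ Z.ldim z) :
    Z.Sm (pdim Z.I) ∧ (∀ z ∈ Z.pts, Z.Tan z = X.Tan z) ∧
      (∀ z ∈ Z.pts, ∃ r, eval z r ≠ 0 ∧ ∀ a ∈ Z.I, r * a ∈ X.I) ∧
      ∃ Z' : Spc, Z'.Sub X ∧ Z'.pts = X.pts \ Z.pts := by
  have h1 := fun z hz => reg_at (finJ_I X) (I_anti h.2) (I_le_mx hz) (ht z hz)
  refine ⟨fun z hz => ?_, fun z hz => (h1 z hz).2.2.2.2, fun z hz => (h1 z hz).2.2.2.1, ?_⟩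
  · have h2 := ldim_irred hZ hz
    refine ⟨?_, h2⟩
    have h3 := (h1 z hz).1
    rw [← ldim_eq, h2, ← (h1 z hz).2.2.2.2] at h3
    exact_mod_cast h3.symm
  · refine ⟨subI X _ ((stabI_I X).colon (stabI_I Z)), subI_sub _ _ _, Set.ext fun y => ⟨?_, ?_⟩⟩
    · rintro ⟨hy, h2⟩
      refine ⟨hy, fun h3 => ?_⟩
      obtain ⟨r, hr, h4⟩ := (h1 y h3).2.2.2.1
      exact hr (h2 (Submodule.mem_colon.2 fun a ha => h4 a ha))
    · rintro ⟨hy, h2⟩
      refine ⟨hy, fun r hr => ?_⟩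
      obtain ⟨a, ha, ha'⟩ := SetLike.not_le_iff_exists.1
        fun h3 => h2 (mem_pts_of_le (h.1 ▸ X.rel y hy) h3)
      exact ((mx_isPrime y).mem_or_mem
        (I_le_mx hy (Submodule.mem_colon.1 hr a ha))).resolve_right ha'

end Crest.Agent.N265.Jac
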