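import Crest.Agent.N265.Jac.Jac

/-!
# Row 265 (helper83): homogeneity

`scal w` rescales the variables; a subspace stable under some power of `gam` is stable under the
whole torus (`stab_torus`).  Consequences: minimal primes of stable ideals are stable
(`stab_minimalPrimes`), spaces are stable under the torus (`torus_mem`), the subspace `subI X J`
cut out by a stable ideal.
-/

set_option autoImplicit false
noncomputable section
open MvPolynomial

namespace Crest.Agent.N265.Jac

/-- rescale the variables -/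
def scal (w : Var → ℂ) : R →ₐ[ℂ] R := aeval fun v => C (w v) * X v

@[simp] theorem scal_X (w : Var → ℂ) (v : Var) : scal w (X v) = C (w v) * X v := by simp [scal]
@[simp] theorem scal_C (w : Var → ℂ) (c : ℂ) : scal w (C c) = C c := by simp [scal]

theorem eval_scal (w x : Pt) (r : R) : eval x (scal w r) = eval (w * x) r := by
  induction r using MvPolynomial.induction_on with
  | C c => simp
  | add p q hp hq => simp [hp, hq]
  | mul_X p v hp => simp [hp]

theorem scal_scal (w w' : Var → ℂ) (r : R) : scal w (scal w' r) = scal (w * w') r := by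
  induction r using MvPolynomial.induction_on with
  | C c => simp
  | add p q hp hq => simp [hp, hq]
  | mul_X p v hp => simp only [map_mul, hp, scal_X, scal_C, Pi.mul_apply]; ring

theorem scal_one (r : R) : scal 1 r = r := by
  induction r using MvPolynomial.induction_on with
  | C c => simp
  | add p q hp hq => simp [hp, hq]
  | mul_X p v hp => simp [hp]

theorem gam_eq_scal (r : R) : gam r = scal (fun v => chi (vdeg v)) r := rfl

theorem scal_monomial (w : Var → ℂ) (s : Var →₀ ℕ) (a : ℂ) :
    scal w (monomial s a) = (s.prod fun v n => w v ^ n) • monomial s a := by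
  rw [scal, aeval_monomial, monomial_eq, smul_eq_C_mul]
  simp only [mul_pow, Finsupp.prod, Finset.prod_mul_distrib, map_prod, map_pow, algebraMap_eq]
  ring

/-- stability under one rescaling implies stability under every rescaling which is constant on the
eigenspaces of the first -/
theorem stable_of {N : Submodule ℂ R} {w w' : Var → ℂ} (hN : ∀ r ∈ N, scal w r ∈ N)
    (h : ∀ s s' : Var →₀ ℕ, (s.prod fun v n => w v ^ n) = (s'.prod fun v n => w v ^ n) →
      (s.prod fun v n => w' v ^ n) = (s'.prod fun v n => w' v ^ n)) {r : R} (hr : r ∈ N) :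
    scal w' r ∈ N := by
  classical
  let mw : (Var →₀ ℕ) → ℂ := fun s => s.prod fun v n => w v ^ n
  let φ : ℂ → ℂ := fun c => if hc : ∃ s, mw s = c then hc.choose.prod fun v n => w' v ^ n else 0
  have hφ : ∀ s, φ (mw s) = s.prod fun v n => w' v ^ n := fun s => by
    have hc : ∃ s', mw s' = mw s := ⟨s, rfl⟩
    simp only [φ, dif_pos hc]
    exact h _ _ hc.choose_spec
  let g : Module.End ℂ R := (scal w).toLinearMap
  let p := Lagrange.interpolate (r.support.image mw) id φ
  have h1 : ∀ q : Polynomial ℂ, ∀ a ∈ N, Polynomial.aeval g q a ∈ N := by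
    intro q
    induction q using Polynomial.induction_on with
    | C c => intro a ha; simpa using N.smul_mem c ha
    | add p q hp hq => intro a ha; simpa using add_mem (hp a ha) (hq a ha)
    | monomial n c hq =>
      intro a ha
      rw [pow_succ, ← mul_assoc, map_mul, Polynomial.aeval_X]
      exact hq _ (hN a ha)
  have h2 : ∀ (q : Polynomial ℂ) (s : Var →₀ ℕ) (a : ℂ),
      Polynomial.aeval g q (monomial s a) = q.eval (mw s) • monomial s a := by
    intro q s a
    induction q using Polynomial.induction_on with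
    | C c => simp
    | add p q hp hq => simp [hp, hq, add_smul]
    | monomial n c hq =>
      rw [pow_succ, ← mul_assoc, map_mul, Polynomial.aeval_X, Module.End.mul_apply]
      have : g (monomial s a) = mw s • monomial s a := scal_monomial w s a
      rw [this, map_smul, hq, smul_smul, Polynomial.eval_mul (q := Polynomial.X),
        Polynomial.eval_X, mul_comm]
  have h3 : Polynomial.aeval g p r = scal w' r := by
    conv_lhs => rw [r.as_sum]
    conv_rhs => rw [r.as_sum]
    rw [map_sum, map_sum]
    refine Finset.sum_congr rfl fun s hs => ?_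
    rw [h2, scal_monomial, ← hφ]
    congr 1
    exact Lagrange.eval_interpolate_at_node (v := id) φ (Set.injOn_id _)
      (Finset.mem_image_of_mem mw hs)
  rw [← h3]
  exact h1 p r hr

/-- the degree of a monomial -/
def mdeg (s : Var →₀ ℕ) : D := s.sum fun v n => n • vdeg v

/-- characters of the grading group -/
structure IsChar (τ : D → ℂ) : Prop where
  zero : τ 0 = 1
  add : ∀ d e, τ (d + e) = τ d * τ e

theorem IsChar.nsmul {τ : D → ℂ} (h : IsChar τ) (n : ℕ) (d : D) : τ (n • d) = τ d ^ n := by
  induction n with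
  | zero => simpa using h.zero
  | succ n ih => rw [succ_nsmul, h.add, ih, pow_succ]

theorem IsChar.ne_zero {τ : D → ℂ} (h : IsChar τ) (d : D) : τ d ≠ 0 := by
  have := h.add d (-d)
  rw [add_neg_cancel, h.zero] at this
  exact left_ne_zero_of_mul_eq_one this.symm

theorem IsChar.prod {τ : D → ℂ} (h : IsChar τ) (s : Var →₀ ℕ) :
    (s.prod fun v n => τ (vdeg v) ^ n) = τ (mdeg s) := by
  classical
  unfold mdeg Finsupp.prod Finsupp.sum
  induction s.support using Finset.induction_on with
  | empty => simpa using h.zero.symm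
  | insert v t hv ih => rw [Finset.prod_insert hv, Finset.sum_insert hv, h.add, h.nsmul, ih]

theorem isChar_chi : IsChar chi := ⟨chi_zero, chi_add⟩
theorem IsChar.pow {τ : D → ℂ} (h : IsChar τ) (k : ℕ) : IsChar fun d => τ d ^ k :=
  ⟨by simp [h.zero], fun d e => by rw [h.add, mul_pow]⟩
theorem IsChar.inv {τ : D → ℂ} (h : IsChar τ) : IsChar fun d => (τ d)⁻¹ :=
  ⟨by simp [h.zero], fun d e => by rw [h.add, mul_inv]⟩
/-- the character `d ↦ c ^ (d i)` -/
theorem isChar_zpow {c : ℂ} (hc : c ≠ 0) (i : Option ℕ) : IsChar fun d => c ^ (d i) :=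
  ⟨by simp, fun d e => by rw [Finsupp.add_apply, zpow_add₀ hc]⟩

theorem gam_iterate (k : ℕ) (r : R) : gam^[k] r = scal (fun v => chi (vdeg v) ^ k) r := by
  induction k with
  | zero => exact (scal_one r).symm.trans (by congr 2)
  | succ k ih =>
    rw [Function.iterate_succ_apply', ih, gam_eq_scal, scal_scal]
    congr 2
    funext v
    rw [pow_succ', Pi.mul_apply]

/-- a subspace stable under a power of `gam` is stable under the torus -/
theorem stab_torus_pow {N : Submodule ℂ R} {k : ℕ} (hk : k ≠ 0) (hN : ∀ r ∈ N, gam^[k] r ∈ N)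
    {τ : D → ℂ} (hτ : IsChar τ) {r : R} (hr : r ∈ N) : scal (fun v => τ (vdeg v)) r ∈ N := by
  refine stable_of (w := fun v => chi (vdeg v) ^ k) (fun a ha => gam_iterate k a ▸ hN a ha)
    (fun s s' h => ?_) hr
  rw [(isChar_chi.pow k).prod, (isChar_chi.pow k).prod, ← isChar_chi.nsmul,
    ← isChar_chi.nsmul] at h
  rw [hτ.prod, hτ.prod, nsmul_right_injective hk (chi_inj h)]

/-- `gam`-stable ideals -/
def StabI (J : Ideal R) : Prop := ∀ r ∈ J, gam r ∈ J

theorem stab_torus {J : Ideal R} (hJ : StabI J) {τ : D → ℂ} (hτ : IsChar τ) {r : R} (hr : r ∈ J) :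
    scal (fun v => τ (vdeg v)) r ∈ J :=
  stab_torus_pow (N := J.restrictScalars ℂ) one_ne_zero hJ hτ hr

theorem stabI_of_pow {J : Ideal R} {k : ℕ} (hk : k ≠ 0) (hJ : ∀ r ∈ J, gam^[k] r ∈ J) : StabI J :=
  fun _ hr => stab_torus_pow (N := J.restrictScalars ℂ) hk hJ isChar_chi hr

theorem stabI_I (X : Spc) : StabI X.I := fun _ h => Spc.gam_mem_I h

/-- the inverse of `gam` -/
def gamInv : R →ₐ[ℂ] R := scal fun v => (chi (vdeg v))⁻¹

theorem gam_gamInv (r : R) : gam (gamInv r) = r := by
  rw [gam_eq_scal, gamInv, scal_scal]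
  refine Eq.trans ?_ (scal_one r)
  congr 2
  funext v
  exact mul_inv_cancel₀ (chi_ne _)

theorem gamInv_gam (r : R) : gamInv (gam r) = r := by
  rw [gam_eq_scal, gamInv, scal_scal]
  refine Eq.trans ?_ (scal_one r)
  congr 2
  funext v
  exact inv_mul_cancel₀ (chi_ne _)

theorem gam_bijective : Function.Bijective gam :=
  ⟨Function.LeftInverse.injective gamInv_gam, Function.RightInverse.surjective gam_gamInv⟩

theorem StabI.inv {J : Ideal R} (hJ : StabI J) {r : R} (hr : r ∈ J) : gamInv r ∈ J :=
  stab_torus hJ isChar_chi.inv hr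

theorem StabI.gam_mem_iff {J : Ideal R} (hJ : StabI J) {r : R} : gam r ∈ J ↔ r ∈ J :=
  ⟨fun h => gamInv_gam r ▸ hJ.inv h, hJ r⟩

theorem StabI.comap_eq {J : Ideal R} (hJ : StabI J) : J.comap gam = J :=
  Ideal.ext fun _ => hJ.gam_mem_iff

theorem StabI.sup {J J' : Ideal R} (h : StabI J) (h' : StabI J') : StabI (J ⊔ J') := by
  intro r hr
  obtain ⟨a, ha, b, hb, rfl⟩ := Submodule.mem_sup.1 hr
  rw [map_add]
  exact add_mem (Ideal.mem_sup_left (h a ha)) (Ideal.mem_sup_right (h' b hb))

theorem StabI.inf {J J' : Ideal R} (h : StabI J) (h' : StabI J') : StabI (J ⊓ J') :=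
  fun r hr => ⟨h r hr.1, h' r hr.2⟩

theorem StabI.radical {J : Ideal R} (h : StabI J) : StabI J.radical :=
  fun r ⟨k, hk⟩ => ⟨k, by rw [← map_pow]; exact h _ hk⟩

theorem StabI.colon {J J' : Ideal R} (h : StabI J) (h' : StabI J') :
    StabI (J.colon (J' : Set R)) := by
  intro r hr
  rw [Submodule.mem_colon] at hr ⊢
  intro a ha
  have := h _ (hr _ (h'.inv ha))
  rwa [smul_eq_mul, map_mul, gam_gamInv] at this

theorem stabI_span {s : Set R} (h : ∀ r ∈ s, ∃ d, Hmg d r) : StabI (Ideal.span s) := by
  intro r hr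
  have : Ideal.span s ≤ (Ideal.span s).comap gam := by
    rw [Ideal.span_le]
    intro a ha
    obtain ⟨d, hd⟩ := h a ha
    rw [SetLike.mem_coe, Ideal.mem_comap, hd]
    exact Ideal.mul_mem_left _ _ (Ideal.subset_span ha)
  exact this hr

theorem FinJ.finite_minimalPrimes {J : Ideal R} (h : FinJ J) : J.minimalPrimes.Finite := by
  have := h.noeth
  rw [Ideal.minimalPrimes_eq_comap]
  exact (minimalPrimes.finite_of_isNoetherianRing _).image _

/-- minimal primes of homogeneous ideals are homogeneous -/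
theorem stab_minimalPrimes {J P : Ideal R} (hfin : FinJ J) (hJ : StabI J)
    (hP : P ∈ J.minimalPrimes) : StabI P := by
  have h1 : ∀ Q ∈ J.minimalPrimes, Q.comap gam ∈ J.minimalPrimes := fun Q hQ => by
    have := Ideal.minimalPrimes_comap_of_surjective gam_bijective.2 hQ
    rwa [hJ.comap_eq] at this
  have h2 : ∀ n : ℕ, (Ideal.comap gam)^[n] P ∈ J.minimalPrimes := fun n => by
    induction n with
    | zero => exact hP
    | succ n ih => rw [Function.iterate_succ_apply']; exact h1 _ ih
  have h3 : ∀ (n : ℕ) (Q : Ideal R) (r : R), r ∈ (Ideal.comap gam)^[n] Q ↔ gam^[n] r ∈ Q := by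
    intro n
    induction n with
    | zero => intro Q r; rfl
    | succ n ih =>
      intro Q r
      rw [Function.iterate_succ_apply', Ideal.mem_comap, ih, Function.iterate_succ_apply]
  obtain ⟨i, j, hij, he⟩ := hfin.finite_minimalPrimes.exists_lt_map_eq_of_forall_mem h2
  refine stabI_of_pow (k := j - i) (by omega) fun r hr => ?_
  obtain ⟨a, rfl⟩ := (gam_bijective.iterate i).2 r
  rw [← Function.iterate_add_apply, Nat.sub_add_cancel hij.le, ← h3, ← he, h3]
  exact hr

theorem Rel.scal {B : Finset ℕ} {x w : Pt} (hx : Rel B x) (hw : ∀ v, w v ≠ 0) : Rel B (w * x) :=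
  fun b hb => let ⟨v, hv, h⟩ := hx b hb; ⟨v, hv, mul_ne_zero (hw v) h⟩

/-- spaces are stable under the whole torus -/
theorem torus_mem {X : Spc} {x : Pt} (hx : x ∈ X.pts) {τ : D → ℂ} (hτ : IsChar τ) :
    (fun v => τ (vdeg v) * x v) ∈ X.pts :=
  X.closed _ (Rel.scal (X.rel x hx) fun _ => hτ.ne_zero _) fun r hr => by
    have := stab_torus (stabI_I X) hτ hr x hx
    rwa [eval_scal] at this

/-- the closed subspace cut out by a homogeneous ideal -/
def subI (X : Spc) (J : Ideal R) (hJ : StabI J) : Spc where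
  B := X.B
  pts := {x | x ∈ X.pts ∧ J ≤ mx x}
  fin := let ⟨V, h1, h2⟩ := X.fin; ⟨V, h1, fun x hx => h2 x hx.1⟩
  rel := fun x hx => X.rel x hx.1
  closed := fun x hx h => ⟨X.closed x hx fun r hr => h r fun y hy => hr y hy.1,
    fun r hr => h r fun _ hy => hy.2 hr⟩
  inv := fun x hx => ⟨X.inv x hx.1, fun r hr => by
    rw [mem_mx, ← eval_gam]; exact hx.2 (hJ r hr)⟩

theorem mem_subI {X : Spc} {J : Ideal R} {hJ : StabI J} {x : Pt} :
    x ∈ (subI X J hJ).pts ↔ x ∈ X.pts ∧ J ≤ mx x := Iff.rfl

theorem subI_sub (X : Spc) (J : Ideal R) (hJ : StabI J) : (subI X J hJ).Sub X :=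
  ⟨rfl, fun _ hx => hx.1⟩

theorem le_subI_I (X : Spc) (J : Ideal R) (hJ : StabI J) : J ≤ (subI X J hJ).I :=
  fun _ hr _ hx => hx.2 hr

end Crest.Agent.N265.Jac
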